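import Vale.Agent.P254.L.Tilt

/-!
P254: the finite dimensional (ALG) interface (helper245).

1-D profile `p = k^{1/3}` on `(0,1)` (`k` = squared skewness of the half line truncated Gaussian as a
function of its variance `b`), `h b = b * p b = s^{2/3}`.

General position: `S(A,B) = A p(BA)`.  The inequality `(P)` for the data `(A,B,T)`:
   `∀ P ≥ 0, ⟨T, P⊗P⊗P T⟩ ≤ tr ((S P)^3)`.
Normal frame: `S = 1`, `A = diag (b i / h (b i)) = diag (1 / p (b i))`, `B = diag (h (b i))`.
-/

namespace Vale.Agent.P254.L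

open Matrix Set Filter Topology

variable {n : ℕ}

/-- one-variable profile with its first two derivatives on `(0,1)` -/
structure Profile where
  p : ℝ → ℝ
  p1 : ℝ → ℝ
  p2 : ℝ → ℝ
  pos : ∀ x ∈ Ioo (0 : ℝ) 1, 0 < p x
  d1 : ∀ x ∈ Ioo (0 : ℝ) 1, HasDerivAt p (p1 x) x
  d2 : ∀ x ∈ Ioo (0 : ℝ) 1, HasDerivAt p1 (p2 x) x
  c2 : ContinuousOn p2 (Ioo 0 1)

namespace Profile

variable (F : Profile)

/-- `h b = b p b` -/
def h (x : ℝ) : ℝ := x * F.p x
def h1 (x : ℝ) : ℝ := F.p x + x * F.p1 x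
def h2 (x : ℝ) : ℝ := 2 * F.p1 x + x * F.p2 x

end Profile

/-- first divided difference `f[x,y]` of a function with derivative `f1` -/
noncomputable def dd1 (f f1 : ℝ → ℝ) (x y : ℝ) : ℝ :=
  if x = y then f1 x else (f x - f y) / (x - y)

/-- second divided difference `f[x,y,z]` of a function with derivatives `f1`, `f2` -/
noncomputable def dd2 (f f1 f2 : ℝ → ℝ) (x y z : ℝ) : ℝ :=
  if x = z then (if x = y then f2 x / 2 else (f1 x - dd1 f f1 x y) / (x - y))
  else (dd1 f f1 x y - dd1 f f1 y z) / (x - z)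

section frame

variable (F : Profile) (b : Vec n) (T : Ten n)

/-- `D_A S [T_a]` in the normal frame -/
noncomputable def Sd (a : Fin n) : Mat n :=
  Matrix.of fun i j => dd1 F.h F.h1 (b i) (b j) * T a i j

/-- second order part of `S` in the directions `a, a'` -/
noncomputable def Gam (a a' : Fin n) : Mat n :=
  Matrix.of fun i j => ∑ k, F.h (b k) * dd2 F.h F.h1 F.h2 (b i) (b k) (b j) * T a i k * T a' k j

/-- derivative of `S` along `A' = - A Q A`, `B' = Q` in the normal frame: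
`Q_ij f[b_i,b_j] / (p_i p_j)`, `f x = (1 - x) p x` -/
noncomputable def Sflow (Q : Mat n) : Mat n :=
  Matrix.of fun i j =>
    Q i j * dd1 (fun x => (1 - x) * F.p x) (fun x => - F.p x + (1 - x) * F.p1 x) (b i) (b j)
      / (F.p (b i) * F.p (b j))

/-- a 4-tensor is fully symmetric -/
def KSymm (K : Fin n → Ten n) : Prop :=
  (∀ i j k l, K i j k l = K j i k l) ∧ (∀ i j k l, K i j k l = K i k j l) ∧
    (∀ i j k l, K i j k l = K i j l k)

/-- exact contact in the normal frame -/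
structure Contact (P : Mat n) (K : Fin n → Ten n) : Prop where
  hb : ∀ i, b i ∈ Ioo (0 : ℝ) 1
  hT : TSymm T
  hK : KSymm K
  hP : P.PosSemidef
  hP0 : P ≠ 0
  /-- the inequality `(P)` holds for `T` -/
  le : ∀ P' : Mat n, P'.PosSemidef → NN P' T T ≤ (P' * P' * P').trace
  /-- with equality at `P` -/
  eq : NN P T T = (P * P * P).trace
  /-- stationarity in `c` -/
  stat : ∀ a, 2 * NN P (K a) T = 3 * (Sd F b T a * (P * P * P)).trace

/-- `(AQ)·T` : contraction of the first slot, `A = diag (1 / p (b i))` -/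
noncomputable def AQT (Q : Mat n) : Ten n := fun i j k => ∑ l, 1 / F.p (b i) * Q i l * T l j k

/-- the drift of `⟨T,P³T⟩ - tr (SP)³` at a contact, control `Q`, coupling `X` -/
noncomputable def drift (P : Mat n) (K : Fin n → Ten n) (Q : Mat n) (X : Fin n → Mat n) : ℝ :=
  - 6 * NN P (AQT F b T Q) T
  + ∑ a, ∑ a', Q a a' * (NN P (K a) (K a') + 6 * N3 (X a) P P (K a') T
      + 3 * N3 (X a) (X a') P T T)
  - (3 * (Sflow F b Q * (P * P * P)).trace
    + ∑ a, ∑ a', Q a a' * (3 * (Gam F b T a a' * (P * P * P)).trace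
      + 3 * (Sd F b T a * P * Sd F b T a' * (P * P)).trace
      + 3 * (X a * (Sd F b T a' * (P * P) + P * Sd F b T a' * P + P * P * Sd F b T a')).trace
      + 3 * (X a * X a' * P).trace))

/-- the drift inequality with control `Q` between `η A⁻¹` and `C₀ A⁻¹`, `A⁻¹ = diag (p (b i))` -/
def ALG (η C₀ : ℝ) : Prop :=
  ∀ (n : ℕ) (b : Vec n) (T : Ten n) (P : Mat n) (K : Fin n → Ten n), Contact F b T P K →
    ∃ (Q : Mat n) (X : Fin n → Mat n),
      (Q - η • Matrix.diagonal fun i => F.p (b i)).PosSemidef ∧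
      ((C₀ • Matrix.diagonal fun i => F.p (b i)) - Q).PosSemidef ∧
      (∀ a, (X a).IsSymm ∧ ∃ C : ℝ, (C • P - X a).PosSemidef ∧ (C • P + X a).PosSemidef) ∧
      0 ≤ drift F b T P K Q X

/-- the drift inequality with the standard control `Q = A⁻¹` -/
def ALGstd : Prop :=
  ∀ (n : ℕ) (b : Vec n) (T : Ten n) (P : Mat n) (K : Fin n → Ten n), Contact F b T P K →
    ∃ (X : Fin n → Mat n),
      (∀ a, (X a).IsSymm ∧ ∃ C : ℝ, (C • P - X a).PosSemidef ∧ (C • P + X a).PosSemidef) ∧
      0 ≤ drift F b T P K (Matrix.diagonal fun i => F.p (b i)) X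

theorem ALGstd.alg (h : ALGstd F) : ALG F 1 1 := by
  intro n b T P K hc
  obtain ⟨X, hX, hd⟩ := h n b T P K hc
  refine ⟨_, X, ?_, ?_, hX, hd⟩
  · rw [one_smul, sub_self]; exact Matrix.PosSemidef.zero
  · rw [one_smul, sub_self]; exact Matrix.PosSemidef.zero

end frame

end Vale.Agent.P254.L
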