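import Mathlib

/-!
P254: first and second order one-sided/two-sided Taylor jets of real functions at `0` along a
filter `l ≤ 𝓝 0` (helper245).
-/

namespace Vale.Agent.P254.L

open Filter Topology Asymptotics Set

/-- `f t = a + b t + o(t)` along `l` -/
def J1 (l : Filter ℝ) (f : ℝ → ℝ) (a b : ℝ) : Prop :=
  (fun t => f t - (a + b * t)) =o[l] fun t => t

/-- `f t = a + b t + c t^2 + o(t^2)` along `l` -/
def J2 (l : Filter ℝ) (f : ℝ → ℝ) (a b c : ℝ) : Prop :=
  (fun t => f t - (a + b * t + c * t ^ 2)) =o[l] fun t => t ^ 2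

variable {l : Filter ℝ} {f g : ℝ → ℝ} {a b c a' b' c' : ℝ}

theorem J1.congr (h : J1 l f a b) (hfg : f =ᶠ[l] g) (ha : a = a') (hb : b = b') :
    J1 l g a' b' := by
  subst ha hb
  exact IsLittleO.congr' h (hfg.mono fun t ht => by simp only [ht]) (EventuallyEq.refl _ _)

theorem J2.congr (h : J2 l f a b c) (hfg : f =ᶠ[l] g) (ha : a = a') (hb : b = b')
    (hc : c = c') : J2 l g a' b' c' := by
  subst ha hb hc
  exact IsLittleO.congr' h (hfg.mono fun t ht => by simp only [ht]) (EventuallyEq.refl _ _)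

theorem J2.congr_coef (h : J2 l f a b c) (ha : a = a') (hb : b = b')
    (hc : c = c') : J2 l f a' b' c' := h.congr (EventuallyEq.refl _ _) ha hb hc

theorem J1.congr_coef (h : J1 l f a b) (ha : a = a') (hb : b = b') : J1 l f a' b' :=
  h.congr (EventuallyEq.refl _ _) ha hb

theorem J1.mono {l' : Filter ℝ} (h : J1 l f a b) (hl : l' ≤ l) : J1 l' f a b :=
  IsLittleO.mono h hl

theorem J2.mono {l' : Filter ℝ} (h : J2 l f a b c) (hl : l' ≤ l) : J2 l' f a b c :=
  IsLittleO.mono h hl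

theorem J1.const (k : ℝ) : J1 l (fun _ => k) k 0 := by
  simp [J1]

theorem J2.const (k : ℝ) : J2 l (fun _ => k) k 0 0 := by
  simp [J2]

theorem J1.id : J1 l (fun t => t) 0 1 := by
  simp [J1]

theorem J2.id : J2 l (fun t => t) 0 1 0 := by
  simp [J2]

theorem J1.add (hf : J1 l f a b) (hg : J1 l g a' b') :
    J1 l (fun t => f t + g t) (a + a') (b + b') := by
  refine (IsLittleO.add hf hg).congr_left fun t => ?_
  ring

theorem J2.add (hf : J2 l f a b c) (hg : J2 l g a' b' c') :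
    J2 l (fun t => f t + g t) (a + a') (b + b') (c + c') := by
  refine (IsLittleO.add hf hg).congr_left fun t => ?_
  ring

theorem J1.const_mul (hf : J1 l f a b) (k : ℝ) : J1 l (fun t => k * f t) (k * a) (k * b) := by
  refine (IsLittleO.const_mul_left hf k).congr_left fun t => ?_
  ring

theorem J2.const_mul (hf : J2 l f a b c) (k : ℝ) :
    J2 l (fun t => k * f t) (k * a) (k * b) (k * c) := by
  refine (IsLittleO.const_mul_left hf k).congr_left fun t => ?_
  ring

theorem J1.mul_const (hf : J1 l f a b) (k : ℝ) : J1 l (fun t => f t * k) (a * k) (b * k) := by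
  refine (hf.const_mul k).congr (Eventually.of_forall fun t => ?_) ?_ ?_ <;> ring

theorem J2.mul_const (hf : J2 l f a b c) (k : ℝ) :
    J2 l (fun t => f t * k) (a * k) (b * k) (c * k) := by
  refine (hf.const_mul k).congr (Eventually.of_forall fun t => ?_) ?_ ?_ ?_ <;> ring

theorem J1.neg (hf : J1 l f a b) : J1 l (fun t => - f t) (-a) (-b) := by
  refine (hf.const_mul (-1)).congr (Eventually.of_forall fun t => ?_) ?_ ?_ <;> ring

theorem J2.neg (hf : J2 l f a b c) : J2 l (fun t => - f t) (-a) (-b) (-c) := by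
  refine (hf.const_mul (-1)).congr (Eventually.of_forall fun t => ?_) ?_ ?_ ?_ <;> ring

theorem J1.sub (hf : J1 l f a b) (hg : J1 l g a' b') :
    J1 l (fun t => f t - g t) (a - a') (b - b') := by
  refine (hf.add hg.neg).congr (Eventually.of_forall fun t => ?_) ?_ ?_ <;> ring

theorem J2.sub (hf : J2 l f a b c) (hg : J2 l g a' b' c') :
    J2 l (fun t => f t - g t) (a - a') (b - b') (c - c') := by
  refine (hf.add hg.neg).congr (Eventually.of_forall fun t => ?_) ?_ ?_ ?_ <;> ring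

theorem J1.sum {ι : Type*} (s : Finset ι) {f : ι → ℝ → ℝ} {a b : ι → ℝ}
    (h : ∀ i ∈ s, J1 l (f i) (a i) (b i)) :
    J1 l (fun t => ∑ i ∈ s, f i t) (∑ i ∈ s, a i) (∑ i ∈ s, b i) := by
  have := IsLittleO.sum (s := s) h
  refine this.congr_left fun t => ?_
  simp [Finset.sum_sub_distrib, Finset.sum_add_distrib, Finset.sum_mul]

theorem J2.sum {ι : Type*} (s : Finset ι) {f : ι → ℝ → ℝ} {a b c : ι → ℝ}
    (h : ∀ i ∈ s, J2 l (f i) (a i) (b i) (c i)) :
    J2 l (fun t => ∑ i ∈ s, f i t) (∑ i ∈ s, a i) (∑ i ∈ s, b i) (∑ i ∈ s, c i) := by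
  have := IsLittleO.sum (s := s) h
  refine this.congr_left fun t => ?_
  simp [Finset.sum_sub_distrib, Finset.sum_add_distrib, Finset.sum_mul]

theorem sq_isLittleO (hl : l ≤ 𝓝 0) : (fun t : ℝ => t ^ 2) =o[l] fun t => t := by
  have h : (fun t : ℝ => t ^ 2) =o[𝓝 0] fun t => t := by
    simpa using (isLittleO_pow_id (𝕜 := ℝ) (n := 2) one_lt_two)
  exact h.mono hl

theorem tendsto_id' (hl : l ≤ 𝓝 0) : Tendsto (fun t : ℝ => t) l (𝓝 0) := hl

theorem id_isBigO_one (hl : l ≤ 𝓝 0) : (fun t : ℝ => t) =O[l] fun _ => (1 : ℝ) :=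
  (tendsto_id' hl).isBigO_one ℝ

theorem J2.toJ1 (hl : l ≤ 𝓝 0) (hf : J2 l f a b c) : J1 l f a b := by
  have h1 : (fun t => f t - (a + b * t + c * t ^ 2)) =o[l] fun t => t :=
    hf.trans_isBigO (sq_isLittleO hl).isBigO
  have h2 : (fun t : ℝ => c * t ^ 2) =o[l] fun t => t := (sq_isLittleO hl).const_mul_left c
  refine (h1.add h2).congr_left fun t => ?_
  ring

theorem J1.sub_isBigO (hf : J1 l f a b) : (fun t => f t - a) =O[l] fun t => t := by
  have h1 : (fun t : ℝ => b * t) =O[l] fun t => t := (isBigO_refl _ _).const_mul_left b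
  refine (hf.isBigO.add h1).congr_left fun t => ?_
  ring

theorem J1.tendsto (hl : l ≤ 𝓝 0) (hf : J1 l f a b) : Tendsto f l (𝓝 a) := by
  have h := (hf.sub_isBigO).trans_tendsto (tendsto_id' hl)
  have := h.add_const a
  simpa using this

theorem J2.tendsto (hl : l ≤ 𝓝 0) (hf : J2 l f a b c) : Tendsto f l (𝓝 a) :=
  (hf.toJ1 hl).tendsto hl

theorem J1.isBigO_one (hl : l ≤ 𝓝 0) (hf : J1 l f a b) : f =O[l] fun _ => (1 : ℝ) :=
  (hf.tendsto hl).isBigO_one ℝ

theorem J1.mul (hl : l ≤ 𝓝 0) (hf : J1 l f a b) (hg : J1 l g a' b') :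
    J1 l (fun t => f t * g t) (a * a') (a * b' + b * a') := by
  -- f g - (..) = (f - pf) g + pf (g - pg) + b b' t^2
  have h1 : (fun t => (f t - (a + b * t)) * g t) =o[l] fun t => t := by
    simpa using hf.mul_isBigO (hg.isBigO_one hl)
  have h2 : (fun t => (a + b * t) * (g t - (a' + b' * t))) =o[l] fun t => t := by
    have hb : (fun t : ℝ => a + b * t) =O[l] fun _ => (1 : ℝ) :=
      ((J1.const a).add (J1.id.const_mul b)).isBigO_one hl
    simpa using hb.mul_isLittleO hg
  have h3 : (fun t : ℝ => b * b' * t ^ 2) =o[l] fun t => t :=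
    (sq_isLittleO hl).const_mul_left _
  refine ((h1.add h2).add h3).congr_left fun t => ?_
  ring

theorem J2.mul (hl : l ≤ 𝓝 0) (hf : J2 l f a b c) (hg : J2 l g a' b' c') :
    J2 l (fun t => f t * g t) (a * a') (a * b' + b * a') (a * c' + b * b' + c * a') := by
  have h1 : (fun t => (f t - (a + b * t + c * t ^ 2)) * g t) =o[l] fun t => t ^ 2 := by
    simpa using hf.mul_isBigO ((hg.toJ1 hl).isBigO_one hl)
  have h2 : (fun t => (a + b * t + c * t ^ 2) * (g t - (a' + b' * t + c' * t ^ 2)))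
      =o[l] fun t => t ^ 2 := by
    have hb : (fun t : ℝ => a + b * t + c * t ^ 2) =O[l] fun _ => (1 : ℝ) := by
      have : Tendsto (fun t : ℝ => a + b * t + c * t ^ 2) (𝓝 0)
          (𝓝 (a + b * 0 + c * 0 ^ 2)) := by
        apply Continuous.tendsto
        fun_prop
      exact (this.mono_left hl).isBigO_one ℝ
    simpa using hb.mul_isLittleO hg
  have h3 : (fun t : ℝ => (b * c' + c * b' + c * c' * t) * t * t ^ 2) =o[l] fun t => t ^ 2 := by
    have h4 : (fun t : ℝ => (b * c' + c * b' + c * c' * t) * t) =o[l] fun _ => (1 : ℝ) := by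
      rw [isLittleO_one_iff]
      have : Tendsto (fun t : ℝ => (b * c' + c * b' + c * c' * t) * t) (𝓝 0)
          (𝓝 ((b * c' + c * b' + c * c' * 0) * 0)) := by
        apply Continuous.tendsto
        fun_prop
      simpa using this.mono_left hl
    simpa using h4.mul_isBigO (isBigO_refl (fun t : ℝ => t ^ 2) l)
  refine ((h1.add h2).add h3).congr_left fun t => ?_
  ring

/-- two continuous derivatives are not needed: Taylor-Young -/
theorem J2.of_hasDerivAt {f' : ℝ → ℝ} {f2 : ℝ} (h1 : ∀ᶠ t in 𝓝 (0 : ℝ), HasDerivAt f (f' t) t)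
    (h2 : HasDerivAt f' f2 0) : J2 (𝓝 0) f (f 0) (f' 0) (f2 / 2) := by
  unfold J2
  rw [isLittleO_iff]
  intro ε hε
  have h3 := (hasDerivAt_iff_isLittleO.1 h2)
  rw [isLittleO_iff] at h3
  have h4 := h3 hε
  obtain ⟨δ, hδ, h5⟩ := Metric.eventually_nhds_iff.1 (h1.and h4)
  rw [Metric.eventually_nhds_iff]
  refine ⟨δ, hδ, fun t ht => ?_⟩
  -- mean value inequality for φ s = f s - (f 0 + f' 0 s + f2/2 s^2)
  have key : ‖(f t - (f 0 + f' 0 * t + f2 / 2 * t ^ 2)) - (f 0 - (f 0 + f' 0 * 0 + f2 / 2 * 0 ^ 2))‖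
      ≤ (ε * |t|) * ‖t - 0‖ := by
    refine Convex.norm_image_sub_le_of_norm_hasDerivWithin_le
      (f := fun s => f s - (f 0 + f' 0 * s + f2 / 2 * s ^ 2))
      (f' := fun s => f' s - (f' 0 + f2 * s)) (s := uIcc 0 t) ?_ ?_ (convex_uIcc 0 t)
      left_mem_uIcc right_mem_uIcc
    · intro s hs
      have hs' : |s| ≤ |t| := by
        rcases abs_cases t with ⟨h, h'⟩ | ⟨h, h'⟩ <;>
        rcases (mem_uIcc.1 hs) with ⟨h6, h7⟩ | ⟨h6, h7⟩ <;>
        rw [abs_le] <;> constructor <;> linarith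
      have hs'' : dist s 0 < δ := by
        rw [Real.dist_0_eq_abs] at ht ⊢; linarith
      have h8 := (h5 hs'').1
      have h9 : HasDerivAt (fun s => f 0 + f' 0 * s + f2 / 2 * s ^ 2) (f' 0 + f2 * s) s := by
        have := (((hasDerivAt_id s).const_mul (f' 0)).const_add (f 0)).add
          (((hasDerivAt_id s).pow 2).const_mul (f2 / 2))
        refine (this.congr_deriv ?_)
        simp only [_root_.id, Nat.cast_ofNat]
        ring
      exact (h8.sub h9).hasDerivWithinAt
    · intro s hs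
      have hs' : |s| ≤ |t| := by
        rcases abs_cases t with ⟨h, h'⟩ | ⟨h, h'⟩ <;>
        rcases (mem_uIcc.1 hs) with ⟨h6, h7⟩ | ⟨h6, h7⟩ <;>
        rw [abs_le] <;> constructor <;> linarith
      have hs'' : dist s 0 < δ := by
        rw [Real.dist_0_eq_abs] at ht ⊢; linarith
      have h8 := (h5 hs'').2
      simp only [sub_zero, smul_eq_mul] at h8
      have e : f' s - (f' 0 + f2 * s) = f' s - f' 0 - s * f2 := by ring
      rw [e]
      refine h8.trans ?_
      rw [Real.norm_eq_abs]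
      exact mul_le_mul_of_nonneg_left hs' hε.le
  have e1 : (f t - (f 0 + f' 0 * t + f2 / 2 * t ^ 2)) - (f 0 - (f 0 + f' 0 * 0 + f2 / 2 * 0 ^ 2))
      = f t - (f 0 + f' 0 * t + f2 / 2 * t ^ 2) := by ring
  rw [e1] at key
  refine key.trans ?_
  rw [sub_zero, Real.norm_eq_abs, Real.norm_eq_abs, mul_assoc, abs_mul_abs_self, abs_pow,
    sq_abs, sq]

theorem J1.of_hasDerivAt {f1 : ℝ} (h : HasDerivAt f f1 0) : J1 (𝓝 0) f (f 0) f1 := by
  have := hasDerivAt_iff_isLittleO.1 h
  refine (this.congr_left fun t => ?_).congr_right fun t => ?_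
  · simp only [sub_zero, smul_eq_mul]; ring
  · simp

theorem J1.of_hasDerivWithinAt {f1 : ℝ} {s : Set ℝ} (h : HasDerivWithinAt f f1 s 0) :
    J1 (𝓝[s] 0) f (f 0) f1 := by
  have := hasDerivWithinAt_iff_isLittleO.1 h
  refine (this.congr_left fun t => ?_).congr_right fun t => ?_
  · simp only [sub_zero, smul_eq_mul]; ring
  · simp

/-- composition with a twice differentiable function -/
theorem J2.comp (hl : l ≤ 𝓝 0) {φ φ1 : ℝ → ℝ} {φ2 : ℝ} (hf : J2 l f a b c)
    (h1 : ∀ᶠ x in 𝓝 a, HasDerivAt φ (φ1 x) x) (h2 : HasDerivAt φ1 φ2 a) :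
    J2 l (fun t => φ (f t)) (φ a) (φ1 a * b) (φ1 a * c + φ2 / 2 * b ^ 2) := by
  -- Taylor of φ at a
  have hT : J2 (𝓝 0) (fun s => φ (a + s)) (φ (a + 0)) (φ1 (a + 0)) (φ2 / 2) := by
    refine J2.of_hasDerivAt (f' := fun s => φ1 (a + s)) ?_ ?_
    · have : Tendsto (fun s : ℝ => a + s) (𝓝 0) (𝓝 a) := by
        have h : Continuous fun s : ℝ => a + s := by fun_prop
        have := h.tendsto 0
        simpa using this
      filter_upwards [this.eventually h1] with s hs
      exact HasDerivAt.comp_const_add a s hs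
    · have : HasDerivAt φ1 φ2 (a + 0) := by simpa using h2
      exact HasDerivAt.comp_const_add a 0 this
  simp only [add_zero] at hT
  have hd : (fun t => f t - a) =O[l] fun t => t := (hf.toJ1 hl).sub_isBigO
  have htd : Tendsto (fun t => f t - a) l (𝓝 0) := by
    have := (hf.tendsto hl).sub_const a
    simpa using this
  have h3 := (IsLittleO.comp_tendsto hT htd)
  have h4 : (fun t => φ (a + (f t - a)) - (φ a + φ1 a * (f t - a) + φ2 / 2 * (f t - a) ^ 2))
      =o[l] fun t => t ^ 2 := by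
    refine IsLittleO.trans_isBigO h3 ?_
    exact hd.pow 2
  have h5 : J2 l (fun t => φ a + φ1 a * (f t - a) + φ2 / 2 * ((f t - a) * (f t - a)))
      (φ a) (φ1 a * b) (φ1 a * c + φ2 / 2 * b ^ 2) := by
    have h6 : J2 l (fun t => f t - a) 0 b c := (hf.sub (J2.const a)).congr_coef (by ring)
      (by ring) (by ring)
    refine ((((J2.const (φ a)).add (h6.const_mul (φ1 a))).add
      (((h6.mul hl h6)).const_mul (φ2 / 2)))).congr_coef ?_ ?_ ?_ <;> ring
  unfold J2 at h5 ⊢
  refine (h4.add h5).congr_left fun t => ?_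
  have : a + (f t - a) = f t := by ring
  rw [this]
  ring

theorem J1.comp (hl : l ≤ 𝓝 0) {φ : ℝ → ℝ} {φ1 : ℝ} (hf : J1 l f a b)
    (h1 : HasDerivAt φ φ1 a) : J1 l (fun t => φ (f t)) (φ a) (φ1 * b) := by
  have hd : (fun t => f t - a) =O[l] fun t => t := hf.sub_isBigO
  have h3 := (hasDerivAt_iff_isLittleO.1 h1).comp_tendsto (hf.tendsto hl)
  have h4 : (fun t => φ (f t) - φ a - (f t - a) * φ1) =o[l] fun t => t := by
    refine IsLittleO.trans_isBigO h3 hd
  have h5 : (fun t => φ1 * (f t - (a + b * t))) =o[l] fun t => t := hf.const_mul_left φ1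
  refine (h4.add h5).congr_left fun t => ?_
  ring

/-- second order test, two-sided: a function with jet `(a,b,c)` and `f ≤ a` near `0` -/
theorem J2.le_test (h : J2 (𝓝 0) f a b c) (hle : ∀ᶠ t in 𝓝 (0 : ℝ), f t ≤ a) : b = 0 ∧ c ≤ 0 := by
  have hb : b = 0 := by
    have h1 := h.toJ1 le_rfl
    -- f has derivative b at 0 and local max (f 0 = a)
    by_contra hb
    rw [J1, isLittleO_iff] at h1
    have h2 := h1 (c := |b| / 2) (by positivity)
    obtain ⟨δ, hδ, h3⟩ := Metric.eventually_nhds_iff.1 (h2.and hle)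
    have hs : dist ((δ / 2) * SignType.sign b : ℝ) 0 < δ := by
      rw [Real.dist_0_eq_abs, abs_mul]
      have : |((SignType.sign b : SignType) : ℝ)| ≤ 1 := by
        rcases lt_trichotomy b 0 with h | h | h
        · simp [sign_neg h]
        · exact absurd h hb
        · simp [sign_pos h]
      have h4 : |δ / 2| = δ / 2 := abs_of_pos (by linarith)
      rw [h4]
      nlinarith
    obtain ⟨h5, h6⟩ := h3 hs
    rw [Real.norm_eq_abs, Real.norm_eq_abs] at h5
    rcases lt_or_gt_of_ne hb with h | h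
    · simp only [sign_neg h, SignType.coe_neg, SignType.coe_one] at h5 h6
      rw [abs_of_neg h] at h5
      have h7 : |δ / 2 * (-1 : ℝ)| = δ / 2 := by
        rw [abs_mul, abs_neg, abs_one, mul_one, abs_of_pos (by linarith)]
      rw [h7] at h5
      have := (abs_le.1 h5).1
      nlinarith
    · simp only [sign_pos h, SignType.coe_one] at h5 h6
      rw [abs_of_pos h] at h5
      have h7 : |δ / 2 * (1 : ℝ)| = δ / 2 := by
        rw [mul_one, abs_of_pos (by linarith)]
      rw [h7] at h5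
      have := (abs_le.1 h5).1
      nlinarith
  refine ⟨hb, ?_⟩
  subst hb
  by_contra hc
  push Not at hc
  rw [J2, isLittleO_iff] at h
  have h2 := h (c := c / 2) (by positivity)
  obtain ⟨δ, hδ, h3⟩ := Metric.eventually_nhds_iff.1 (h2.and hle)
  have hs : dist (δ / 2 : ℝ) 0 < δ := by
    rw [Real.dist_0_eq_abs, abs_of_pos (by linarith)]; linarith
  obtain ⟨h5, h6⟩ := h3 hs
  rw [Real.norm_eq_abs, Real.norm_eq_abs, abs_of_pos (show (0:ℝ) < (δ / 2) ^ 2 by positivity)]
    at h5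
  have := (abs_le.1 h5).1
  have h8 : (0 : ℝ) < (δ / 2) ^ 2 := by positivity
  nlinarith

/-- first order one-sided test -/
theorem J1.le_test (h : J1 (𝓝[≥] 0) f a b) (hle : ∀ᶠ t in 𝓝[≥] (0 : ℝ), f t ≤ a) : b ≤ 0 := by
  by_contra hb
  push Not at hb
  rw [J1, isLittleO_iff] at h
  have h2 := h (c := b / 2) (by positivity)
  have h3 := h2.and hle
  rw [eventually_nhdsWithin_iff, Metric.eventually_nhds_iff] at h3
  obtain ⟨δ, hδ, h3⟩ := h3
  have hs : dist (δ / 2 : ℝ) 0 < δ := by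
    rw [Real.dist_0_eq_abs, abs_of_pos (by linarith)]; linarith
  obtain ⟨h5, h6⟩ := h3 hs (by simp only [mem_Ici]; linarith)
  rw [Real.norm_eq_abs, Real.norm_eq_abs, abs_of_pos (show (0:ℝ) < (δ / 2) by positivity)] at h5
  have := (abs_le.1 h5).1
  nlinarith

end Vale.Agent.P254.L
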