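import Vale.Agent.P254.L.ZDefs
import Vale.Agent.P254.L.Jets

/-!
P254: spectral functions of a pair `(A, B)`, `A` positive definite, `B` symmetric (helper245).

`Fr A B L β` : `L A Lᵀ = 1`, `B = Lᵀ diag β L`.
`Phi f A B = ∑ f (β i)`,  `Sf f A B = A f(BA) = (LA)ᵀ diag (f ∘ β) (LA)`.
-/

namespace Vale.Agent.P254.L

open Matrix Polynomial Filter Topology Asymptotics Set

variable {n : ℕ}

/-- a normal frame of the pair `(A, B)` -/
structure Fr (A B : Mat n) (L : Mat n) (β : Vec n) : Prop where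
  hA : L * A * Lᵀ = 1
  hB : B = Lᵀ * Matrix.diagonal β * L

theorem spec_symm {A : Mat n} (hH : A.IsHermitian) :
    ∃ (U : Mat n) (lam : Vec n), Uᵀ * U = 1 ∧ U * Uᵀ = 1 ∧ A = U * Matrix.diagonal lam * Uᵀ ∧
      lam = hH.eigenvalues := by
  obtain ⟨U, hU⟩ : ∃ U : Mat n, U = hH.eigenvectorUnitary.val := ⟨_, rfl⟩
  have h1 : Uᵀ * U = 1 := by
    rw [hU]
    have := Unitary.coe_star_mul_self hH.eigenvectorUnitary
    simpa [Matrix.star_eq_conjTranspose, Matrix.conjTranspose_eq_transpose_of_trivial] using this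
  have h2 : U * Uᵀ = 1 := by
    rw [hU]
    have := Unitary.coe_mul_star_self hH.eigenvectorUnitary
    simpa [Matrix.star_eq_conjTranspose, Matrix.conjTranspose_eq_transpose_of_trivial] using this
  have h3 : A = U * Matrix.diagonal hH.eigenvalues * Uᵀ := by
    rw [hU]
    have := hH.spectral_theorem
    rw [Unitary.conjStarAlgAut_apply] at this
    simpa [Matrix.star_eq_conjTranspose, Matrix.conjTranspose_eq_transpose_of_trivial] using this
  exact ⟨U, _, h1, h2, h3, rfl⟩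

theorem exists_Fr {A B : Mat n} (hA : A.PosDef) (hB : B.IsHermitian) :
    ∃ (L : Mat n) (β : Vec n), Fr A B L β := by
  obtain ⟨U, lam, h1, h2, h3, h4⟩ := spec_symm hA.isHermitian
  have hlam : ∀ i, 0 < lam i := fun i => by rw [h4]; exact hA.eigenvalues_pos i
  obtain ⟨d, hd0, hd2⟩ : ∃ d : Vec n, (∀ i, d i ≠ 0) ∧ ∀ i, d i * d i = lam i :=
    ⟨fun i => Real.sqrt (lam i), fun i => (Real.sqrt_pos.2 (hlam i)).ne',
      fun i => Real.mul_self_sqrt (hlam i).le⟩
  obtain ⟨L0, hL0⟩ : ∃ L0 : Mat n, L0 = Matrix.diagonal (fun i => (d i)⁻¹) * Uᵀ := ⟨_, rfl⟩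
  obtain ⟨L1, hL1⟩ : ∃ L1 : Mat n, L1 = U * Matrix.diagonal d := ⟨_, rfl⟩
  have e1 : L0 * L1 = 1 := by
    rw [hL0, hL1]
    calc Matrix.diagonal (fun i => (d i)⁻¹) * Uᵀ * (U * Matrix.diagonal d)
        = Matrix.diagonal (fun i => (d i)⁻¹) * (Uᵀ * U) * Matrix.diagonal d := by
          simp only [Matrix.mul_assoc]
      _ = 1 := by
          rw [h1, Matrix.mul_one, Matrix.diagonal_mul_diagonal, ← Matrix.diagonal_one]
          congr 1; ext i; exact inv_mul_cancel₀ (hd0 i)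
  have e2 : A = L1 * L1ᵀ := by
    rw [h3, hL1, Matrix.transpose_mul, Matrix.diagonal_transpose]
    calc U * Matrix.diagonal lam * Uᵀ
        = U * (Matrix.diagonal d * Matrix.diagonal d) * Uᵀ := by
          rw [Matrix.diagonal_mul_diagonal]; simp only [hd2]
      _ = U * Matrix.diagonal d * (Matrix.diagonal d * Uᵀ) := by simp only [Matrix.mul_assoc]
  have e3 : L0 * A * L0ᵀ = 1 := by
    rw [e2]
    calc L0 * (L1 * L1ᵀ) * L0ᵀ = (L0 * L1) * (L0 * L1)ᵀ := by
          rw [Matrix.transpose_mul]; simp only [Matrix.mul_assoc]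
      _ = 1 := by rw [e1]; simp
  -- symmetric matrix `L1ᵀ B L1`
  have hBT : Bᵀ = B := by
    have := hB.eq
    rwa [Matrix.conjTranspose_eq_transpose_of_trivial] at this
  have hS : (L1ᵀ * B * L1).IsHermitian := by
    rw [Matrix.IsHermitian, Matrix.conjTranspose_eq_transpose_of_trivial, Matrix.transpose_mul,
      Matrix.transpose_mul, Matrix.transpose_transpose, hBT, Matrix.mul_assoc]
  obtain ⟨V, β, k1, k2, k3, -⟩ := spec_symm hS
  have e1' : L1 * L0 = 1 := mul_eq_one_comm.1 e1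
  refine ⟨Vᵀ * L0, β, ?_, ?_⟩
  · calc Vᵀ * L0 * A * (Vᵀ * L0)ᵀ = Vᵀ * (L0 * A * L0ᵀ) * V := by
          rw [Matrix.transpose_mul, Matrix.transpose_transpose]; simp only [Matrix.mul_assoc]
      _ = 1 := by rw [e3, Matrix.mul_one, k1]
  · calc B = (L1 * L0)ᵀ * B * (L1 * L0) := by rw [e1']; simp
      _ = L0ᵀ * (L1ᵀ * B * L1) * L0 := by
          rw [Matrix.transpose_mul]; simp only [Matrix.mul_assoc]
      _ = (Vᵀ * L0)ᵀ * Matrix.diagonal β * (Vᵀ * L0) := by
          rw [k3, Matrix.transpose_mul, Matrix.transpose_transpose]; simp only [Matrix.mul_assoc]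

namespace Fr

variable {A B L : Mat n} {β : Vec n}

theorem mul1 (h : Fr A B L β) : (L * A) * Lᵀ = 1 := h.hA

theorem mul2 (h : Fr A B L β) : Lᵀ * (L * A) = 1 := mul_eq_one_comm.1 h.hA

theorem isUnit (h : Fr A B L β) : IsUnit L := by
  have : L * (A * Lᵀ) = 1 := by rw [← Matrix.mul_assoc]; exact h.hA
  exact IsUnit.of_mul_eq_one _ this

theorem BA (h : Fr A B L β) : B * A = Lᵀ * Matrix.diagonal β * (L * A) := by
  conv_lhs => rw [h.hB]
  simp only [Matrix.mul_assoc]

theorem aeval_BA (h : Fr A B L β) (q : ℝ[X]) :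
    aeval (B * A) q = Lᵀ * Matrix.diagonal (fun i => q.eval (β i)) * (L * A) := by
  induction q using Polynomial.induction_on with
  | C a =>
    rw [aeval_C]
    simp only [eval_C]
    have : (Matrix.diagonal fun _ : Fin n => a) = a • (1 : Mat n) := by
      rw [Matrix.smul_one_eq_diagonal]
    rw [this, Matrix.mul_smul, Matrix.mul_one, Matrix.smul_mul, h.mul2,
      Algebra.algebraMap_eq_smul_one]
  | add p q hp hq =>
    rw [map_add, hp, hq]
    have : (Matrix.diagonal fun i => (p + q).eval (β i))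
        = (Matrix.diagonal fun i => p.eval (β i)) + Matrix.diagonal fun i => q.eval (β i) := by
      rw [Matrix.diagonal_add]; simp only [eval_add]
    rw [this, Matrix.mul_add, Matrix.add_mul]
  | monomial m a ih =>
    have e : (C a * X ^ (m + 1) : ℝ[X]) = (C a * X ^ m) * X := by rw [pow_succ, mul_assoc]
    rw [e, map_mul, ih, aeval_X]
    conv_lhs => rw [h.BA]
    calc Lᵀ * Matrix.diagonal (fun i => eval (β i) (C a * X ^ m)) * (L * A) *
          (Lᵀ * Matrix.diagonal β * (L * A))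
        = Lᵀ * Matrix.diagonal (fun i => eval (β i) (C a * X ^ m)) * ((L * A) * Lᵀ) *
          Matrix.diagonal β * (L * A) := by simp only [Matrix.mul_assoc]
      _ = _ := by
          rw [h.mul1, Matrix.mul_one, Matrix.mul_assoc Lᵀ, Matrix.diagonal_mul_diagonal]
          simp only [eval_mul, eval_X]

theorem trace_aeval (h : Fr A B L β) (q : ℝ[X]) :
    (aeval (B * A) q).trace = ∑ i, q.eval (β i) := by
  rw [h.aeval_BA, Matrix.trace_mul_comm, ← Matrix.mul_assoc, h.mul1, Matrix.one_mul,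
    Matrix.trace_diagonal]

theorem A_aeval (h : Fr A B L β) (hA : Aᵀ = A) (q : ℝ[X]) :
    A * aeval (B * A) q = (L * A)ᵀ * Matrix.diagonal (fun i => q.eval (β i)) * (L * A) := by
  rw [h.aeval_BA, Matrix.transpose_mul, hA]
  simp only [Matrix.mul_assoc]

theorem gram (h : Fr A B L β) (hA : Aᵀ = A) : (L * A)ᵀ * (L * A) = A := by
  rw [Matrix.transpose_mul, hA, Matrix.mul_assoc, h.mul2, Matrix.mul_one]

end Fr

/-- `∑ f (β i)` -/
noncomputable def Phi (f : ℝ → ℝ) (A B : Mat n) : ℝ := by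
  classical
  exact if h : ∃ L β, Fr A B L β then ∑ i, f (h.choose_spec.choose i) else 0

/-- `A f(BA)` -/
noncomputable def Sf (f : ℝ → ℝ) (A B : Mat n) : Mat n := by
  classical
  exact if h : ∃ L β, Fr A B L β then
    (h.choose * A)ᵀ * Matrix.diagonal (fun i => f (h.choose_spec.choose i)) * (h.choose * A)
    else 0

theorem exists_interp (f : ℝ → ℝ) (s : Finset ℝ) : ∃ q : ℝ[X], ∀ x ∈ s, q.eval x = f x := by
  classical
  refine ⟨Lagrange.interpolate s (fun x => x) f, fun x hx => ?_⟩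
  exact Lagrange.eval_interpolate_at_node _ (fun x _ y _ h => h) hx

theorem Fr.sum_eq {A B L L' : Mat n} {β β' : Vec n} (h : Fr A B L β) (h' : Fr A B L' β')
    (f : ℝ → ℝ) : ∑ i, f (β i) = ∑ i, f (β' i) := by
  classical
  obtain ⟨q, hq⟩ := exists_interp f (Finset.univ.image β ∪ Finset.univ.image β')
  have h1 : ∀ i, q.eval (β i) = f (β i) := fun i => hq _ (by simp)
  have h2 : ∀ i, q.eval (β' i) = f (β' i) := fun i => hq _ (by simp)
  simp only [← h1, ← h2, ← h.trace_aeval, ← h'.trace_aeval]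

theorem Phi_eq {A B L : Mat n} {β : Vec n} (h : Fr A B L β) (f : ℝ → ℝ) :
    Phi f A B = ∑ i, f (β i) := by
  classical
  have hex : ∃ L β, Fr A B L β := ⟨L, β, h⟩
  unfold Phi
  rw [dif_pos hex]
  exact Fr.sum_eq hex.choose_spec.choose_spec h f

theorem Sf_eq {A B L : Mat n} {β : Vec n} (hA : Aᵀ = A) (h : Fr A B L β) (f : ℝ → ℝ) :
    Sf f A B = (L * A)ᵀ * Matrix.diagonal (fun i => f (β i)) * (L * A) := by
  classical
  have hex : ∃ L β, Fr A B L β := ⟨L, β, h⟩
  unfold Sf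
  rw [dif_pos hex]
  have h' := hex.choose_spec.choose_spec
  set L' := hex.choose
  set β' := hex.choose_spec.choose
  obtain ⟨q, hq⟩ := exists_interp f (Finset.univ.image β ∪ Finset.univ.image β')
  have h1 : ∀ i, q.eval (β i) = f (β i) := fun i => hq _ (by simp)
  have h2 : ∀ i, q.eval (β' i) = f (β' i) := fun i => hq _ (by simp)
  simp only [← h1, ← h2]
  rw [← h.A_aeval hA, ← h'.A_aeval hA]

/-! ### the nodal polynomial -/

/-- `∏_{λ ∈ s} (X - λ)` -/
noncomputable def nod (s : Finset ℝ) : ℝ[X] := ∏ x ∈ s, (X - C x)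

theorem eval_nod (s : Finset ℝ) (x : ℝ) : (nod s).eval x = ∏ y ∈ s, (x - y) := by
  simp [nod, eval_prod]

theorem nod_nhds (s : Finset ℝ) (U : Set ℝ) (h : ∀ x ∈ s, U ∈ 𝓝 x) :
    ∃ δ > 0, ∀ x, |(nod s).eval x| < δ → x ∈ U := by
  classical
  have h1 : ∀ y ∈ s, ∃ r > 0, r ≤ (1 : ℝ) ∧ ∀ x, |x - y| < r → x ∈ U := by
    intro y hy
    obtain ⟨r, hr, h2⟩ := Metric.mem_nhds_iff.1 (h y hy)
    refine ⟨min r 1, by positivity, min_le_right _ _, fun x hx => h2 ?_⟩
    rw [Metric.mem_ball, Real.dist_eq]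
    exact lt_of_lt_of_le hx (min_le_left _ _)
  choose! r hr0 hr1 hrU using h1
  refine ⟨∏ y ∈ s, r y, Finset.prod_pos hr0, fun x hx => ?_⟩
  by_contra hU
  have h2 : ∀ y ∈ s, r y ≤ |x - y| := by
    intro y hy
    by_contra h3
    push Not at h3
    exact hU (hrU y hy x h3)
  have h3 : ∏ y ∈ s, r y ≤ |(nod s).eval x| := by
    rw [eval_nod, Finset.abs_prod]
    exact Finset.prod_le_prod (fun y hy => (hr0 y hy).le) h2
  linarith

theorem nod_sq_isBigO (s : Finset ℝ) {y : ℝ} (hy : y ∈ s) :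
    (fun x => (x - y) ^ 2) =O[𝓝 y] fun x => ((nod s).eval x) ^ 2 := by
  classical
  have e : ∀ x, (nod s).eval x = (x - y) * ∏ z ∈ s.erase y, (x - z) := by
    intro x
    rw [eval_nod, ← Finset.mul_prod_erase s _ hy]
  have h0 : ∏ z ∈ s.erase y, (y - z) ≠ 0 := by
    rw [Finset.prod_ne_zero_iff]
    intro z hz
    have := Finset.ne_of_mem_erase hz
    exact sub_ne_zero.2 this.symm
  have hc : Tendsto (fun x => ∏ z ∈ s.erase y, (x - z)) (𝓝 y) (𝓝 (∏ z ∈ s.erase y, (y - z))) := by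
    apply Continuous.tendsto
    fun_prop
  have h1 : (fun _ : ℝ => (1 : ℝ)) =O[𝓝 y] fun x => ∏ z ∈ s.erase y, (x - z) := by
    refine IsBigO.of_bound (2 / |∏ z ∈ s.erase y, (y - z)|) ?_
    have hp : 0 < |∏ z ∈ s.erase y, (y - z)| := abs_pos.2 h0
    have h2 := hc.abs.eventually (lt_mem_nhds (show |∏ z ∈ s.erase y, (y - z)| / 2
      < |∏ z ∈ s.erase y, (y - z)| by linarith))
    filter_upwards [h2] with x hx
    rw [norm_one, Real.norm_eq_abs]
    rw [div_mul_eq_mul_div, le_div_iff₀ hp]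
    linarith
  have h2 : (fun x => (x - y) * 1) =O[𝓝 y] fun x => (nod s).eval x := by
    simp_rw [e]
    exact (isBigO_refl _ _).mul h1
  simpa using h2.pow 2

theorem key_o (s : Finset ℝ) (ρ : ℝ → ℝ)
    (h : ∀ y ∈ s, (fun x => ρ x) =o[𝓝 y] fun x => (x - y) ^ 2) {ε : ℝ} (hε : 0 < ε) :
    ∃ δ > 0, ∀ x, |(nod s).eval x| < δ → |ρ x| ≤ ε * ((nod s).eval x) ^ 2 := by
  refine nod_nhds s {x | |ρ x| ≤ ε * ((nod s).eval x) ^ 2} fun y hy => ?_
  have h1 := (h y hy).trans_isBigO (nod_sq_isBigO s hy)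
  have h2 := (isLittleO_iff.1 h1) hε
  filter_upwards [h2] with x hx
  simpa [abs_of_nonneg (sq_nonneg ((nod s).eval x))] using hx

/-- each value of the nodal polynomial is controlled by a trace -/
theorem Fr.nod_le {A B L : Mat n} {β : Vec n} (h : Fr A B L β) (s : Finset ℝ) :
    ∑ i, ((nod s).eval (β i)) ^ 2
      = (aeval (B * A) (nod s) * aeval (B * A) (nod s)).trace := by
  rw [← map_mul, h.trace_aeval]
  simp only [eval_mul, sq]

/-- the nodal polynomial annihilates `B A` -/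
theorem Fr.nod_zero {A B L : Mat n} {β : Vec n} (h : Fr A B L β) {s : Finset ℝ}
    (hs : ∀ i, β i ∈ s) : aeval (B * A) (nod s) = 0 := by
  rw [h.aeval_BA]
  have : (Matrix.diagonal fun i => (nod s).eval (β i)) = 0 := by
    rw [← Matrix.diagonal_zero]
    congr 1
    ext i
    rw [eval_nod]
    exact Finset.prod_eq_zero (hs i) (sub_self _)
  rw [this]; simp

end Vale.Agent.P254.L
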