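import Vale.Agent.P254.L.Spec

/-!
P254: spectral functions are continuous and agree to second order with Hermite polynomials
(helper245).
-/

namespace Vale.Agent.P254.L

open Matrix Polynomial Filter Topology Asymptotics Set

variable {n : ℕ}

theorem Fr.ev_nod {α : Type*} {l : Filter α} {A B : α → Mat n} {A0 B0 L0 : Mat n} {β0 : Vec n}
    (h0 : Fr A0 B0 L0 β0) (hA : Tendsto A l (𝓝 A0)) (hB : Tendsto B l (𝓝 B0)) {s : Finset ℝ}
    (hs : ∀ i, β0 i ∈ s) {δ : ℝ} (hδ : 0 < δ) :
    ∀ᶠ x in l, ∀ (L : Mat n) (β : Vec n), Fr (A x) (B x) L β →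
      ∀ j, |(nod s).eval (β j)| < δ := by
  have hc : Tendsto (fun x => (aeval (B x * A x) (nod s) * aeval (B x * A x) (nod s)).trace) l
      (𝓝 ((aeval (B0 * A0) (nod s) * aeval (B0 * A0) (nod s)).trace)) := by
    have h1 : Tendsto (fun x => B x * A x) l (𝓝 (B0 * A0)) := hB.mul hA
    have h2 : Tendsto (fun x => aeval (B x * A x) (nod s)) l (𝓝 (aeval (B0 * A0) (nod s))) :=
      ((Polynomial.continuous_aeval (nod s)).tendsto _).comp h1
    have h3 : Continuous fun M : Mat n => M.trace := continuous_id.matrix_trace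
    exact (h3.tendsto _).comp (h2.mul h2)
  rw [h0.nod_zero hs, Matrix.mul_zero, Matrix.trace_zero] at hc
  have h4 := hc.eventually (gt_mem_nhds (show (0:ℝ) < δ ^ 2 by positivity))
  filter_upwards [h4] with x hx L β hF j
  rw [← hF.nod_le s] at hx
  have h5 : ((nod s).eval (β j)) ^ 2 ≤ ∑ i, ((nod s).eval (β i)) ^ 2 :=
    Finset.single_le_sum (f := fun i => ((nod s).eval (β i)) ^ 2) (fun i _ => sq_nonneg _)
      (Finset.mem_univ j)
  exact abs_lt_of_sq_lt_sq (by linarith) hδ.le

theorem Phi_tendsto {α : Type*} {l : Filter α} {A B : α → Mat n} {A0 B0 L0 : Mat n} {β0 : Vec n}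
    (h0 : Fr A0 B0 L0 β0) (hA : Tendsto A l (𝓝 A0)) (hB : Tendsto B l (𝓝 B0)) {f : ℝ → ℝ}
    (hf : ∀ i, ContinuousAt f (β0 i)) (hfr : ∀ᶠ x in l, ∃ L β, Fr (A x) (B x) L β) :
    Tendsto (fun x => Phi f (A x) (B x)) l (𝓝 (Phi f A0 B0)) := by
  classical
  obtain ⟨q, hq⟩ := exists_interp f (Finset.univ.image β0)
  have hq' : ∀ i, q.eval (β0 i) = f (β0 i) := fun i => hq _ (by simp)
  have e0 : Phi f A0 B0 = (aeval (B0 * A0) q).trace := by
    rw [Phi_eq h0, h0.trace_aeval]; simp only [hq']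
  have hc : Tendsto (fun x => (aeval (B x * A x) q).trace) l
      (𝓝 ((aeval (B0 * A0) q).trace)) := by
    have h1 : Tendsto (fun x => B x * A x) l (𝓝 (B0 * A0)) := hB.mul hA
    have h2 : Tendsto (fun x => aeval (B x * A x) q) l (𝓝 (aeval (B0 * A0) q)) :=
      ((Polynomial.continuous_aeval q).tendsto _).comp h1
    have h3 : Continuous fun M : Mat n => M.trace := continuous_id.matrix_trace
    exact (h3.tendsto _).comp h2
  rw [e0, Metric.tendsto_nhds]
  intro ε hε
  have hε' : 0 < ε / (2 * (n + 1)) := by positivity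
  obtain ⟨δ, hδ, hk⟩ := nod_nhds (Finset.univ.image β0) {x | |f x - q.eval x| < ε / (2 * (n + 1))}
    (by
      intro y hy
      obtain ⟨i, -, rfl⟩ := Finset.mem_image.1 hy
      have h5 : ContinuousAt (fun x => |f x - q.eval x|) (β0 i) :=
        ((hf i).sub q.continuous.continuousAt).abs
      have h6 : |f (β0 i) - q.eval (β0 i)| < ε / (2 * (n + 1)) := by
        rw [hq', sub_self, abs_zero]; exact hε'
      exact h5.eventually (gt_mem_nhds h6))
  have h7 := h0.ev_nod hA hB (s := Finset.univ.image β0) (by simp) hδ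
  have h8 := (Metric.tendsto_nhds.1 hc) (ε / 2) (by positivity)
  filter_upwards [h7, h8, hfr] with x h7 h8 h9
  obtain ⟨L, β, hF⟩ := h9
  rw [Real.dist_eq] at h8 ⊢
  have h10 : |Phi f (A x) (B x) - (aeval (B x * A x) q).trace| ≤ ε / 2 := by
    rw [Phi_eq hF, hF.trace_aeval, ← Finset.sum_sub_distrib]
    refine (Finset.abs_sum_le_sum_abs _ _).trans ?_
    have : ∀ i ∈ Finset.univ, |f (β i) - q.eval (β i)| ≤ ε / (2 * (n + 1)) := fun i _ =>
      (hk _ (h7 L β hF i)).le
    refine (Finset.sum_le_sum this).trans ?_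
    rw [Finset.sum_const, Finset.card_univ, Fintype.card_fin, nsmul_eq_mul]
    rw [← mul_div_assoc, div_le_div_iff₀ (by positivity) (by positivity)]
    nlinarith
  have e : Phi f (A x) (B x) - (aeval (B0 * A0) q).trace
      = (Phi f (A x) (B x) - (aeval (B x * A x) q).trace)
        + ((aeval (B x * A x) q).trace - (aeval (B0 * A0) q).trace) := by ring
  rw [e]
  have := abs_add_le (Phi f (A x) (B x) - (aeval (B x * A x) q).trace)
    ((aeval (B x * A x) q).trace - (aeval (B0 * A0) q).trace)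
  linarith

/-- entries of `Sf f - A q(BA)` -/
theorem Sf_sub_le {A B L : Mat n} {β : Vec n} (hA : Aᵀ = A) (h : Fr A B L β) (f : ℝ → ℝ)
    (q : ℝ[X]) {η : ℝ} (hη : ∀ k, |f (β k) - q.eval (β k)| ≤ η) (i j : Fin n) :
    |Sf f A B i j - (A * aeval (B * A) q) i j| ≤ η * ((A i i + A j j) / 2) := by
  have hg := h.gram hA
  have hgi : ∀ i, ∑ k, (L * A) k i * (L * A) k i = A i i := by
    intro i
    have := congrFun (congrFun hg i) i
    rw [Matrix.mul_apply] at this
    simpa [Matrix.transpose_apply] using this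
  rw [Sf_eq hA h, h.A_aeval hA]
  have e : ((L * A)ᵀ * Matrix.diagonal (fun i => f (β i)) * (L * A)) i j
      - ((L * A)ᵀ * Matrix.diagonal (fun i => q.eval (β i)) * (L * A)) i j
      = ∑ k, (f (β k) - q.eval (β k)) * ((L * A) k i * (L * A) k j) := by
    rw [Matrix.mul_apply, Matrix.mul_apply, ← Finset.sum_sub_distrib]
    refine Finset.sum_congr rfl fun k _ => ?_
    rw [Matrix.mul_diagonal, Matrix.mul_diagonal, Matrix.transpose_apply]
    ring
  rw [e]
  refine (Finset.abs_sum_le_sum_abs _ _).trans ?_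
  have h1 : ∀ k ∈ Finset.univ, |(f (β k) - q.eval (β k)) * ((L * A) k i * (L * A) k j)|
      ≤ η * (((L * A) k i * (L * A) k i + (L * A) k j * (L * A) k j) / 2) := by
    intro k _
    rw [abs_mul]
    refine mul_le_mul (hη k) ?_ (abs_nonneg _) ((abs_nonneg _).trans (hη k))
    rw [abs_le]
    constructor <;> nlinarith [sq_nonneg ((L * A) k i + (L * A) k j),
      sq_nonneg ((L * A) k i - (L * A) k j)]
  refine (Finset.sum_le_sum h1).trans ?_
  rw [← Finset.mul_sum, ← Finset.sum_div, Finset.sum_add_distrib, hgi, hgi]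

theorem Sf_tendsto {α : Type*} {l : Filter α} {A B : α → Mat n} {A0 B0 L0 : Mat n} {β0 : Vec n}
    (h0 : Fr A0 B0 L0 β0) (hA0 : A0ᵀ = A0) (hA : Tendsto A l (𝓝 A0)) (hB : Tendsto B l (𝓝 B0))
    {f : ℝ → ℝ} (hf : ∀ i, ContinuousAt f (β0 i))
    (hfr : ∀ᶠ x in l, (A x)ᵀ = A x ∧ ∃ L β, Fr (A x) (B x) L β) :
    Tendsto (fun x => Sf f (A x) (B x)) l (𝓝 (Sf f A0 B0)) := by
  classical
  obtain ⟨q, hq⟩ := exists_interp f (Finset.univ.image β0)
  have hq' : ∀ i, q.eval (β0 i) = f (β0 i) := fun i => hq _ (by simp)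
  have e0 : Sf f A0 B0 = A0 * aeval (B0 * A0) q := by
    rw [Sf_eq hA0 h0, h0.A_aeval hA0]; simp only [hq']
  have hc : Tendsto (fun x => A x * aeval (B x * A x) q) l (𝓝 (A0 * aeval (B0 * A0) q)) := by
    have h1 : Tendsto (fun x => B x * A x) l (𝓝 (B0 * A0)) := hB.mul hA
    have h2 : Tendsto (fun x => aeval (B x * A x) q) l (𝓝 (aeval (B0 * A0) q)) :=
      ((Polynomial.continuous_aeval q).tendsto _).comp h1
    exact hA.mul h2
  rw [e0]
  refine tendsto_pi_nhds.2 fun i => tendsto_pi_nhds.2 fun j => ?_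
  have hcij : Tendsto (fun x => (A x * aeval (B x * A x) q) i j) l
      (𝓝 ((A0 * aeval (B0 * A0) q) i j)) := tendsto_pi_nhds.1 (tendsto_pi_nhds.1 hc i) j
  rw [Metric.tendsto_nhds]
  intro ε hε
  set κ : ℝ := |(A0 i i + A0 j j) / 2| + 1 with hκ
  have hκ0 : 0 < κ := by positivity
  have hε' : 0 < ε / (2 * κ) := by positivity
  obtain ⟨δ, hδ, hk⟩ := nod_nhds (Finset.univ.image β0) {x | |f x - q.eval x| < ε / (2 * κ)}
    (by
      intro y hy
      obtain ⟨i, -, rfl⟩ := Finset.mem_image.1 hy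
      have h5 : ContinuousAt (fun x => |f x - q.eval x|) (β0 i) :=
        ((hf i).sub q.continuous.continuousAt).abs
      have h6 : |f (β0 i) - q.eval (β0 i)| < ε / (2 * κ) := by
        rw [hq', sub_self, abs_zero]; exact hε'
      exact h5.eventually (gt_mem_nhds h6))
  have h7 := h0.ev_nod hA hB (s := Finset.univ.image β0) (by simp) hδ
  have h8 := (Metric.tendsto_nhds.1 hcij) (ε / 2) (by positivity)
  have hAi : ∀ i, Tendsto (fun x => A x i i) l (𝓝 (A0 i i)) := fun i =>
    tendsto_pi_nhds.1 (tendsto_pi_nhds.1 hA i) i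
  have h11 : ∀ᶠ x in l, (A x i i + A x j j) / 2 < κ := by
    have := ((hAi i).add (hAi j)).div_const 2
    refine this.eventually (gt_mem_nhds ?_)
    rw [hκ]
    have := le_abs_self ((A0 i i + A0 j j) / 2)
    linarith
  filter_upwards [h7, h8, hfr, h11] with x h7 h8 h9 h11
  obtain ⟨hsy, L, β, hF⟩ := h9
  rw [Real.dist_eq] at h8 ⊢
  have h10 : |Sf f (A x) (B x) i j - (A x * aeval (B x * A x) q) i j| ≤ ε / 2 := by
    refine (Sf_sub_le hsy hF f q (η := ε / (2 * κ))
      (fun k => (hk _ (h7 L β hF k)).le) i j).trans ?_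
    calc ε / (2 * κ) * ((A x i i + A x j j) / 2) ≤ ε / (2 * κ) * κ :=
          mul_le_mul_of_nonneg_left h11.le hε'.le
      _ = ε / 2 := by field_simp
  have e : Sf f (A x) (B x) i j - (A0 * aeval (B0 * A0) q) i j
      = (Sf f (A x) (B x) i j - (A x * aeval (B x * A x) q) i j)
        + ((A x * aeval (B x * A x) q) i j - (A0 * aeval (B0 * A0) q) i j) := by ring
  rw [e]
  have := abs_add_le (Sf f (A x) (B x) i j - (A x * aeval (B x * A x) q) i j)
    ((A x * aeval (B x * A x) q) i j - (A0 * aeval (B0 * A0) q) i j)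
  linarith

/-! ### second order -/

/-- the remainder of a matching polynomial is `o((x-y)^2)` -/
theorem rho_o {f f1 : ℝ → ℝ} {f2 y : ℝ} (h1 : ∀ᶠ x in 𝓝 y, HasDerivAt f (f1 x) x)
    (h2 : HasDerivAt f1 f2 y) {q : ℝ[X]} (e0 : q.eval y = f y)
    (e1 : q.derivative.eval y = f1 y) (e2 : q.derivative.derivative.eval y = f2) :
    (fun x => f x - q.eval x) =o[𝓝 y] fun x => (x - y) ^ 2 := by
  have hT : J2 (𝓝 0) (fun s => f (y + s) - q.eval (y + s)) (f (y + 0) - q.eval (y + 0))
      (f1 (y + 0) - q.derivative.eval (y + 0)) ((f2 - q.derivative.derivative.eval (y + 0)) / 2) := by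
    refine J2.of_hasDerivAt (f' := fun s => f1 (y + s) - q.derivative.eval (y + s)) ?_ ?_
    · have : Tendsto (fun s : ℝ => y + s) (𝓝 0) (𝓝 y) := by
        have h : Continuous fun s : ℝ => y + s := by fun_prop
        have := h.tendsto 0
        simpa using this
      filter_upwards [this.eventually h1] with s hs
      exact (HasDerivAt.comp_const_add y s hs).sub
        (HasDerivAt.comp_const_add y s (q.hasDerivAt (y + s)))
    · have h3 : HasDerivAt f1 f2 (y + 0) := by simpa using h2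
      exact (HasDerivAt.comp_const_add y 0 h3).sub
        (HasDerivAt.comp_const_add y 0 (q.derivative.hasDerivAt (y + 0)))
  simp only [add_zero, e0, e1, e2, sub_self, zero_div] at hT
  have hT' : (fun s => f (y + s) - q.eval (y + s)) =o[𝓝 0] fun s => s ^ 2 := by
    refine IsLittleO.congr_left hT fun s => ?_
    ring
  have h4 : Tendsto (fun x : ℝ => x - y) (𝓝 y) (𝓝 0) := by
    have h : Continuous fun x : ℝ => x - y := by fun_prop
    have := h.tendsto y
    simpa using this
  have h5 := hT'.comp_tendsto h4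
  refine IsLittleO.congr h5 (fun x => ?_) (fun x => ?_)
  · simp only [Function.comp]
    have : y + (x - y) = x := by ring
    rw [this]
  · simp only [Function.comp]

/-- Lipschitz dependence of polynomials of matrices, entrywise -/
theorem aeval_isBigO {l : Filter ℝ} (hl : l ≤ 𝓝 0) {M : ℝ → Mat n} {M0 : Mat n}
    (hM : ∀ i j, (fun t => M t i j - M0 i j) =O[l] fun t => t) (q : ℝ[X]) :
    ∀ i j, (fun t => aeval (M t) q i j - aeval M0 q i j) =O[l] fun t => t := by
  have hb : ∀ i j, (fun t => M t i j) =O[l] fun _ => (1 : ℝ) := by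
    intro i j
    have h1 : (fun t => M t i j - M0 i j) =O[l] fun _ => (1 : ℝ) :=
      (hM i j).trans (id_isBigO_one hl)
    have h2 : (fun _ : ℝ => M0 i j) =O[l] fun _ => (1 : ℝ) := isBigO_const_const _ one_ne_zero _
    refine (h1.add h2).congr_left fun t => ?_
    ring
  induction q using Polynomial.induction_on with
  | C a =>
    intro i j
    simp only [aeval_C, sub_self]
    exact isBigO_zero _ _
  | add p q hp hq =>
    intro i j
    refine ((hp i j).add (hq i j)).congr_left fun t => ?_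
    simp only [map_add, Matrix.add_apply]
    ring
  | monomial m a ih =>
    intro i j
    have e : (C a * X ^ (m + 1) : ℝ[X]) = (C a * X ^ m) * X := by rw [pow_succ, mul_assoc]
    simp only [e, map_mul, aeval_X] at ih ⊢
    obtain ⟨N, hN⟩ : ∃ N : ℝ → Mat n, N = fun t => aeval (M t) (C a : ℝ[X]) * aeval (M t) (X ^ m : ℝ[X]) :=
      ⟨_, rfl⟩
    obtain ⟨N0, hN0⟩ : ∃ N0 : Mat n, N0 = aeval M0 (C a : ℝ[X]) * aeval M0 (X ^ m : ℝ[X]) := ⟨_, rfl⟩
    have hNt : ∀ t, aeval (M t) (C a : ℝ[X]) * aeval (M t) (X ^ m : ℝ[X]) = N t := fun t => by rw [hN]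
    simp only [hNt, ← hN0] at ih ⊢
    have h3 : ∀ k, (fun t => N t i k * M t k j - N0 i k * M0 k j) =O[l] fun t => t := by
      intro k
      have h4 : (fun t => (N t i k - N0 i k) * M t k j) =O[l] fun t => t := by
        simpa using (ih i k).mul (hb k j)
      have h5 : (fun t => N0 i k * (M t k j - M0 k j)) =O[l] fun t => t :=
        (hM k j).const_mul_left _
      refine (h4.add h5).congr_left fun t => ?_
      ring
    have h6 := IsBigO.sum (s := (Finset.univ : Finset (Fin n))) (fun k _ => h3 k)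
    refine h6.congr_left fun t => ?_
    simp only [Matrix.mul_apply, Finset.sum_apply, Finset.sum_sub_distrib]

/-- the curve data used below -/
structure Curve (l : Filter ℝ) (A B : ℝ → Mat n) (A0 B0 : Mat n) : Prop where
  hl : l ≤ 𝓝 0
  symm0 : A0ᵀ = A0
  hA : ∀ i j, (fun t => A t i j - A0 i j) =O[l] fun t => t
  hB : ∀ i j, (fun t => B t i j - B0 i j) =O[l] fun t => t
  fr : ∀ᶠ t in l, (A t)ᵀ = A t ∧ ∃ L β, Fr (A t) (B t) L β

namespace Curve

variable {l : Filter ℝ} {A B : ℝ → Mat n} {A0 B0 : Mat n}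

theorem tendsto_of {M : ℝ → Mat n} {M0 : Mat n} (hl : l ≤ 𝓝 0)
    (hM : ∀ i j, (fun t => M t i j - M0 i j) =O[l] fun t => t) : Tendsto M l (𝓝 M0) := by
  refine tendsto_pi_nhds.2 fun i => tendsto_pi_nhds.2 fun j => ?_
  have h := (hM i j).trans_tendsto (tendsto_id' hl)
  have := h.add_const (M0 i j)
  simpa using this

theorem tendsto_A (h : Curve l A B A0 B0) : Tendsto A l (𝓝 A0) := tendsto_of h.hl h.hA
theorem tendsto_B (h : Curve l A B A0 B0) : Tendsto B l (𝓝 B0) := tendsto_of h.hl h.hB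

theorem hBA (h : Curve l A B A0 B0) :
    ∀ i j, (fun t => (B t * A t) i j - (B0 * A0) i j) =O[l] fun t => t := by
  intro i j
  have hb : ∀ i j, (fun t => A t i j) =O[l] fun _ => (1 : ℝ) := by
    intro i j
    have h1 : (fun t => A t i j - A0 i j) =O[l] fun _ => (1 : ℝ) :=
      (h.hA i j).trans (id_isBigO_one h.hl)
    have h2 : (fun _ : ℝ => A0 i j) =O[l] fun _ => (1 : ℝ) := isBigO_const_const _ one_ne_zero _
    refine (h1.add h2).congr_left fun t => ?_
    ring
  have h3 : ∀ k, (fun t => B t i k * A t k j - B0 i k * A0 k j) =O[l] fun t => t := by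
    intro k
    have h4 : (fun t => (B t i k - B0 i k) * A t k j) =O[l] fun t => t := by
      simpa using (h.hB i k).mul (hb k j)
    have h5 : (fun t => B0 i k * (A t k j - A0 k j)) =O[l] fun t => t :=
      (h.hA k j).const_mul_left _
    refine (h4.add h5).congr_left fun t => ?_
    ring
  have h6 := IsBigO.sum (s := (Finset.univ : Finset (Fin n))) (fun k _ => h3 k)
  refine h6.congr_left fun t => ?_
  simp only [Matrix.mul_apply, Finset.sum_apply, Finset.sum_sub_distrib]

theorem nod_O (h : Curve l A B A0 B0) {L0 : Mat n} {β0 : Vec n} (h0 : Fr A0 B0 L0 β0)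
    {s : Finset ℝ} (hs : ∀ i, β0 i ∈ s) :
    (fun t => (aeval (B t * A t) (nod s) * aeval (B t * A t) (nod s)).trace) =O[l]
      fun t => t ^ 2 := by
  have h1 := aeval_isBigO h.hl h.hBA (nod s)
  rw [h0.nod_zero hs] at h1
  simp only [Matrix.zero_apply, sub_zero] at h1
  have h2 : ∀ i, (fun t => ∑ k, aeval (B t * A t) (nod s) i k * aeval (B t * A t) (nod s) k i)
      =O[l] fun t => t ^ 2 := by
    intro i
    have h5 : ∀ k, (fun t => aeval (B t * A t) (nod s) i k * aeval (B t * A t) (nod s) k i)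
        =O[l] fun t => t ^ 2 := by
      intro k
      have := (h1 i k).mul (h1 k i)
      refine this.congr_right fun t => ?_
      ring
    have h6 := IsBigO.sum (s := (Finset.univ : Finset (Fin n))) (fun k _ => h5 k)
    refine h6.congr_left fun t => ?_
    simp only [Finset.sum_apply]
  have h3 := IsBigO.sum (s := (Finset.univ : Finset (Fin n))) (fun i _ => h2 i)
  refine h3.congr_left fun t => ?_
  simp only [Matrix.trace, Matrix.diag_apply, Matrix.mul_apply, Finset.sum_apply]

/-- the spectral sum agrees to second order with the trace of a matching polynomial -/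
theorem Phi_poly (h : Curve l A B A0 B0) {L0 : Mat n} {β0 : Vec n} (h0 : Fr A0 B0 L0 β0)
    {f : ℝ → ℝ} {q : ℝ[X]}
    (hρ : ∀ i, (fun x => f x - q.eval x) =o[𝓝 (β0 i)] fun x => (x - β0 i) ^ 2) :
    (fun t => Phi f (A t) (B t) - (aeval (B t * A t) q).trace) =o[l] fun t => t ^ 2 := by
  classical
  set s := Finset.univ.image β0 with hs
  have hs' : ∀ i, β0 i ∈ s := fun i => by simp [hs]
  have hO := h.nod_O h0 hs'
  obtain ⟨K, hK⟩ := hO.bound
  rw [isLittleO_iff]
  intro ε hε
  set K' := |K| + 1 with hK'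
  have hK0 : 0 < K' := by positivity
  obtain ⟨δ, hδ, hk⟩ := key_o s (fun x => f x - q.eval x) (by
    intro y hy
    obtain ⟨i, -, rfl⟩ := Finset.mem_image.1 hy
    exact hρ i) (show 0 < ε / K' by positivity)
  have h7 := h0.ev_nod h.tendsto_A h.tendsto_B hs' hδ
  filter_upwards [h7, hK, h.fr] with t h7 hK hfr
  obtain ⟨-, L, β, hF⟩ := hfr
  rw [Phi_eq hF, hF.trace_aeval, ← Finset.sum_sub_distrib, Real.norm_eq_abs]
  refine (Finset.abs_sum_le_sum_abs _ _).trans ?_
  refine (Finset.sum_le_sum (fun i _ => hk _ (h7 L β hF i))).trans ?_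
  rw [← Finset.mul_sum, hF.nod_le s]
  have h9 : (aeval (B t * A t) (nod s) * aeval (B t * A t) (nod s)).trace ≤ K' * ‖t ^ 2‖ := by
    refine (le_abs_self _).trans ?_
    rw [Real.norm_eq_abs] at hK
    refine hK.trans (mul_le_mul_of_nonneg_right ?_ (norm_nonneg _))
    rw [hK']; have := le_abs_self K; linarith
  calc ε / K' * (aeval (B t * A t) (nod s) * aeval (B t * A t) (nod s)).trace
      ≤ ε / K' * (K' * ‖t ^ 2‖) := mul_le_mul_of_nonneg_left h9 (by positivity)
    _ = ε * ‖t ^ 2‖ := by field_simp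

/-- the matrix `Sf f` agrees to second order with `A q(BA)` -/
theorem Sf_poly (h : Curve l A B A0 B0) {L0 : Mat n} {β0 : Vec n} (h0 : Fr A0 B0 L0 β0)
    {f : ℝ → ℝ} {q : ℝ[X]}
    (hρ : ∀ i, (fun x => f x - q.eval x) =o[𝓝 (β0 i)] fun x => (x - β0 i) ^ 2) (i j : Fin n) :
    (fun t => Sf f (A t) (B t) i j - (A t * aeval (B t * A t) q) i j) =o[l] fun t => t ^ 2 := by
  classical
  set s := Finset.univ.image β0 with hs
  have hs' : ∀ i, β0 i ∈ s := fun i => by simp [hs]
  have hO := h.nod_O h0 hs'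
  obtain ⟨K, hK⟩ := hO.bound
  rw [isLittleO_iff]
  intro ε hε
  set κ : ℝ := |(A0 i i + A0 j j) / 2| + 1 with hκ
  have hκ0 : 0 < κ := by positivity
  set K' := (|K| + 1) * κ with hK'
  have hK0 : 0 < K' := by positivity
  obtain ⟨δ, hδ, hk⟩ := key_o s (fun x => f x - q.eval x) (by
    intro y hy
    obtain ⟨i, -, rfl⟩ := Finset.mem_image.1 hy
    exact hρ i) (show 0 < ε / K' by positivity)
  have h7 := h0.ev_nod h.tendsto_A h.tendsto_B hs' hδ
  have hAi : ∀ i, Tendsto (fun x => A x i i) l (𝓝 (A0 i i)) := fun i =>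
    tendsto_pi_nhds.1 (tendsto_pi_nhds.1 h.tendsto_A i) i
  have h11 : ∀ᶠ x in l, (A x i i + A x j j) / 2 < κ := by
    have := ((hAi i).add (hAi j)).div_const 2
    refine this.eventually (gt_mem_nhds ?_)
    rw [hκ]
    have := le_abs_self ((A0 i i + A0 j j) / 2)
    linarith
  filter_upwards [h7, hK, h.fr, h11] with t h7 hK hfr h11
  obtain ⟨hsy, L, β, hF⟩ := hfr
  have h9 : (aeval (B t * A t) (nod s) * aeval (B t * A t) (nod s)).trace
      ≤ (|K| + 1) * ‖t ^ 2‖ := by
    refine (le_abs_self _).trans ?_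
    rw [Real.norm_eq_abs] at hK
    refine hK.trans (mul_le_mul_of_nonneg_right ?_ (norm_nonneg _))
    have := le_abs_self K; linarith
  have h10 : ∀ k, |f (β k) - q.eval (β k)| ≤ ε / K' * ((|K| + 1) * ‖t ^ 2‖) := by
    intro k
    refine (hk _ (h7 L β hF k)).trans (mul_le_mul_of_nonneg_left ?_ (by positivity))
    refine le_trans ?_ h9
    rw [← hF.nod_le s]
    exact Finset.single_le_sum (f := fun i => ((nod s).eval (β i)) ^ 2) (fun i _ => sq_nonneg _)
      (Finset.mem_univ k)
  have h12 := Sf_sub_le hsy hF f q h10 i j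
  rw [Real.norm_eq_abs]
  refine h12.trans ?_
  calc ε / K' * ((|K| + 1) * ‖t ^ 2‖) * ((A t i i + A t j j) / 2)
      ≤ ε / K' * ((|K| + 1) * ‖t ^ 2‖) * κ := by
        refine mul_le_mul_of_nonneg_left h11.le (by positivity)
    _ = ε * ‖t ^ 2‖ := by rw [hK']; field_simp

end Curve

end Vale.Agent.P254.L
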