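import Mathlib

/-!
P254, analytic frame.  Abstract interface (helper245).

`TiltData n` : what the maximum principle uses about ONE nice measure `ν` on `ℝⁿ` and its tilts
`μ_{B,c} ∝ exp(⟨c,x⟩ - ⟨x,Bx⟩/2) dν`, `B` positive semidefinite, `c ∈ ℝⁿ`.
-/

namespace Vale.Agent.P254.L

open Matrix Set Filter Topology Asymptotics

abbrev Vec (n : ℕ) := Fin n → ℝ
abbrev Mat (n : ℕ) := Matrix (Fin n) (Fin n) ℝ
/-- 3-tensors -/
abbrev Ten (n : ℕ) := Fin n → Fin n → Fin n → ℝ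

variable {n : ℕ}

/-- contraction of a 3-tensor with a vector in the first slot -/
def sl (T : Ten n) (e : Vec n) : Mat n := Matrix.of fun i j => ∑ a, e a * T a i j

/-- fully symmetric 3-tensor -/
def TSymm (T : Ten n) : Prop := (∀ i j k, T i j k = T j i k) ∧ (∀ i j k, T i j k = T i k j)

/-- `⟨T, P₁⊗P₂⊗P₃ T'⟩` -/
def N3 (P₁ P₂ P₃ : Mat n) (T T' : Ten n) : ℝ :=
  ∑ a, ∑ b, ∑ c, ∑ a', ∑ b', ∑ c', P₁ a a' * P₂ b b' * P₃ c c' * T a b c * T' a' b' c'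

/-- `⟨T, P⊗P⊗P T'⟩` -/
def NN (P : Mat n) (T T' : Ten n) : ℝ := N3 P P P T T'

/-- cumulant data of the tilts of one nice measure -/
structure TiltData (n : ℕ) where
  /-- convexity constant -/
  m : ℝ
  M : ℝ
  hm : 0 < m
  hM : m ≤ M
  /-- mean -/
  mu : Mat n → Vec n → Vec n
  /-- covariance, and the 3rd, 4th, 5th cumulants -/
  A : Mat n → Vec n → Mat n
  T : Mat n → Vec n → Ten n
  K : Mat n → Vec n → Fin n → Fin n → Fin n → Fin n → ℝ
  R : Mat n → Vec n → Fin n → Fin n → Fin n → Fin n → Fin n → ℝ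
  A_symm : ∀ B c i j, A B c i j = A B c j i
  T_symm : ∀ B c, TSymm (T B c)
  K_symm1 : ∀ B c i j k l, K B c i j k l = K B c j i k l
  K_symm2 : ∀ B c i j k l, K B c i j k l = K B c i k j l
  K_symm3 : ∀ B c i j k l, K B c i j k l = K B c i j l k
  /-- derivatives in `c` -/
  dA : ∀ B : Mat n, B.PosSemidef → ∀ (c e : Vec n) i j (t : ℝ),
    HasDerivAt (fun t : ℝ => A B (c + t • e) i j) (∑ k, e k * T B (c + t • e) i j k) t
  dT : ∀ B : Mat n, B.PosSemidef → ∀ (c e : Vec n) i j k (t : ℝ),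
    HasDerivAt (fun t : ℝ => T B (c + t • e) i j k) (∑ l, e l * K B (c + t • e) i j k l) t
  dK : ∀ B : Mat n, B.PosSemidef → ∀ (c e : Vec n) i j k l (t : ℝ),
    HasDerivAt (fun t : ℝ => K B (c + t • e) i j k l) (∑ r, e r * R B (c + t • e) i j k l r) t
  /-- one-sided derivative along `(Q, Q mu)` -/
  fA : ∀ B : Mat n, B.PosSemidef → ∀ (c : Vec n) (Q : Mat n), Q.PosSemidef → ∀ i j,
    HasDerivWithinAt (fun t : ℝ => A (B + t • Q) (c + t • (Q *ᵥ mu B c)) i j)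
      (-(A B c * Q * A B c) i j - 1 / 2 * ∑ k, ∑ l, Q k l * K B c i j k l) (Ici 0) 0
  fT : ∀ B : Mat n, B.PosSemidef → ∀ (c : Vec n) (Q : Mat n), Q.PosSemidef → ∀ i j k,
    HasDerivWithinAt (fun t : ℝ => T (B + t • Q) (c + t • (Q *ᵥ mu B c)) i j k)
      (-(∑ l, ((A B c * Q) i l * T B c l j k + (A B c * Q) j l * T B c i l k
        + (A B c * Q) k l * T B c i j l)) - 1 / 2 * ∑ l, ∑ r, Q l r * R B c i j k l r) (Ici 0) 0
  /-- joint continuity -/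
  cA : ∀ i j, ContinuousOn (fun p : Mat n × Vec n => A p.1 p.2 i j) ({B | B.PosSemidef} ×ˢ univ)
  cT : ∀ i j k, ContinuousOn (fun p : Mat n × Vec n => T p.1 p.2 i j k)
    ({B | B.PosSemidef} ×ˢ univ)
  /-- two-sided bounds of the covariance matrix -/
  posA : ∀ B : Mat n, B.PosSemidef → ∀ c, (A B c).PosDef
  lo : ∀ B : Mat n, B.PosSemidef → ∀ c, ((B + M • (1 : Mat n)) - (A B c)⁻¹).PosSemidef
  up : ∀ B : Mat n, B.PosSemidef → ∀ c, ((A B c)⁻¹ - (B + m • (1 : Mat n))).PosSemidef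
  /-- uniform bound of the third cumulant -/
  CT : ℝ
  hCT : 0 ≤ CT
  bT : ∀ B : Mat n, B.PosSemidef → ∀ b : ℝ, 0 ≤ b → (B - b • (1 : Mat n)).PosSemidef →
    ∀ c, ∀ P : Mat n, P.PosSemidef →
      NN P (T B c) (T B c) ≤ CT / (b + M) ^ 3 * (A B c * P).trace ^ 3
  /-- the third cumulant tends to zero as `|c| → ∞`, `B` bounded -/
  vT : ∀ b η : ℝ, 0 < η → ∃ ρ : ℝ, ∀ B : Mat n, B.PosSemidef → (b • (1 : Mat n) - B).PosSemidef →
    ∀ c : Vec n, ρ ≤ ‖c‖ → ∀ P : Mat n, P.PosSemidef →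
      NN P (T B c) (T B c) ≤ η * (A B c * P).trace ^ 3

/-- entropy data (used only in the last step) -/
structure EntData (D : TiltData n) where
  Ent : Mat n → Vec n → ℝ
  g : Mat n → Vec n → Vec n
  Xi : Mat n → Vec n → Mat n
  /-- second order Taylor expansion in `c` -/
  dE : ∀ B : Mat n, B.PosSemidef → ∀ c e : Vec n,
    (fun t : ℝ => Ent B (c + t • e) - Ent B c - t * (∑ i, g B c i * e i)
      - t ^ 2 / 2 * ∑ i, ∑ j, Xi B c i j * e i * e j) =o[𝓝 0] fun t : ℝ => t ^ 2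
  fE : ∀ B : Mat n, B.PosSemidef → ∀ (c : Vec n) (Q : Mat n), Q.PosSemidef →
    HasDerivWithinAt (fun t : ℝ => Ent (B + t • Q) (c + t • (Q *ᵥ D.mu B c)))
      (-(1 / 2) * ((Q * D.A B c).trace + ∑ i, ∑ j, Q i j * Xi B c i j)) (Ici 0) 0
  cE : ContinuousOn (fun p : Mat n × Vec n => Ent p.1 p.2) ({B | B.PosSemidef} ×ˢ univ)
  /-- `h(X) ≥ ½ log det (2πe G)`, `G = (B+M)⁻¹` -/
  lowE : ∀ B : Mat n, B.PosSemidef → ∀ c,
    (n : ℝ) / 2 * Real.log (2 * Real.pi * Real.exp 1)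
      - 1 / 2 * Real.log (B + D.M • (1 : Mat n)).det ≤ Ent B c
  /-- `A → G` as `|c| → ∞`, `B` bounded -/
  vA : ∀ b η : ℝ, 0 < η → ∃ ρ : ℝ, ∀ B : Mat n, B.PosSemidef →
    (b • (1 : Mat n) - B).PosSemidef → ∀ c : Vec n, ρ ≤ ‖c‖ →
      Real.log (D.A B c).det ≤ - Real.log (B + D.M • (1 : Mat n)).det + η

end Vale.Agent.P254.L
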