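import Vale.Agent.P254.L.Spec2

/-!
P254, block (Z): domain, boundary, existence of the minimum (helper640).
-/

namespace Vale.Agent.P254.L

open Matrix Filter Topology Set

variable {n : ℕ}

/-! ### positive semidefinite matrices -/

theorem psd_iff {M : Mat n} :
    M.PosSemidef ↔ Mᵀ = M ∧ ∀ x : Vec n, 0 ≤ x ⬝ᵥ (M *ᵥ x) := by
  rw [Matrix.posSemidef_iff_dotProduct_mulVec]
  simp [Matrix.IsHermitian, Matrix.conjTranspose_eq_transpose_of_trivial]

theorem isClosed_psd : IsClosed {M : Mat n | M.PosSemidef} := by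
  have e : {M : Mat n | M.PosSemidef}
      = {M : Mat n | Mᵀ = M} ∩ ⋂ x : Vec n, {M : Mat n | 0 ≤ x ⬝ᵥ (M *ᵥ x)} := by
    ext M
    simp only [mem_ofPred_eq, mem_inter_iff, mem_iInter, psd_iff]
  rw [e]
  refine IsClosed.inter ?_ (isClosed_iInter fun x => ?_)
  · exact isClosed_eq (continuous_id.matrix_transpose) continuous_id
  · refine isClosed_le continuous_const ?_
    exact Continuous.dotProduct continuous_const
      (Continuous.matrix_mulVec continuous_id continuous_const)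

theorem psd_entry {M : Mat n} (h : M.PosSemidef) (i j : Fin n) :
    |M i j| ≤ (M i i + M j j) / 2 := by
  obtain ⟨h1, h2⟩ := psd_iff.1 h
  have hs : M j i = M i j := congrFun (congrFun h1 i) j
  have key : ∀ s : ℝ, 0 ≤ M i i + s * M i j + s * M i j + s * s * M j j := by
    intro s
    have := h2 (Pi.single i 1 + s • Pi.single j 1)
    simp only [Matrix.mulVec_add, Matrix.mulVec_smul, dotProduct_add, add_dotProduct,
      smul_dotProduct, dotProduct_smul, Matrix.mulVec_single_one, Matrix.col_apply,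
      single_one_dotProduct, smul_eq_mul, hs] at this
    linarith
  rw [abs_le]
  constructor
  · have := key 1; linarith
  · have := key (-1); linarith

theorem psd_diag_le {M : Mat n} {R : ℝ} (h : (R • (1 : Mat n) - M).PosSemidef) (i : Fin n) :
    M i i ≤ R := by
  have := h.diag_nonneg (i := i)
  simp [Matrix.sub_apply, Matrix.smul_apply] at this
  linarith

/-- a bounded closed order interval of matrices is compact -/
theorem isCompact_box (R : ℝ) :
    IsCompact {M : Mat n | ∀ i j, M i j ∈ Icc (-R) R} := by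
  have h : IsCompact (Set.pi univ fun _ : Fin n => Set.pi univ fun _ : Fin n => Icc (-R) R) :=
    isCompact_univ_pi fun _ => isCompact_univ_pi fun _ => isCompact_Icc
  have e : {M : Mat n | ∀ i j, M i j ∈ Icc (-R) R}
      = (Set.pi univ fun _ : Fin n => Set.pi univ fun _ : Fin n => Icc (-R) R) := by
    ext M
    exact ⟨fun h i _ j _ => h i j, fun h i j => h i trivial j trivial⟩
  rw [e]
  exact h

/-! ### determinants -/

theorem Fr.det_B {A B L : Mat n} {β : Vec n} (h : Fr A B L β) :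
    B.det = L.det ^ 2 * ∏ i, β i := by
  conv_lhs => rw [h.hB]
  rw [Matrix.det_mul, Matrix.det_mul, Matrix.det_transpose, Matrix.det_diagonal]
  ring

theorem Fr.det_A {A B L : Mat n} {β : Vec n} (h : Fr A B L β) : L.det ^ 2 * A.det = 1 := by
  have := congrArg Matrix.det h.hA
  rw [Matrix.det_mul, Matrix.det_mul, Matrix.det_transpose, Matrix.det_one] at this
  linarith

theorem Fr.inv_A {A B L : Mat n} {β : Vec n} (h : Fr A B L β) : A⁻¹ = Lᵀ * L := by
  have h1 : Lᵀ * L * A = 1 := by rw [Matrix.mul_assoc]; exact h.mul2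
  exact Matrix.inv_eq_left_inv h1

/-- transport of positivity to the frame -/
theorem psd_conj_iff {L : Mat n} (hL : IsUnit L) {X : Mat n} :
    (Lᵀ * X * L).PosSemidef ↔ X.PosSemidef := by
  have := hL.posSemidef_star_left_conjugate_iff (x := X)
  rwa [Matrix.star_eq_conjTranspose, Matrix.conjTranspose_eq_transpose_of_trivial] at this

theorem posDef_conj_iff {L : Mat n} (hL : IsUnit L) {X : Mat n} :
    (Lᵀ * X * L).PosDef ↔ X.PosDef := by
  have := hL.posDef_star_left_conjugate_iff (x := X)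
  rwa [Matrix.star_eq_conjTranspose, Matrix.conjTranspose_eq_transpose_of_trivial] at this

theorem det_mono {C D : Mat n} (hC : C.PosDef) (hD : D.PosDef) (h : (C - D).PosSemidef) :
    D.det ≤ C.det := by
  obtain ⟨L, δ, hF⟩ := exists_Fr hC.inv hD.isHermitian
  have hCC : C = Lᵀ * L := by
    have := hF.inv_A
    rwa [Matrix.nonsing_inv_nonsing_inv _ ((Matrix.isUnit_iff_isUnit_det _).1 hC.isUnit)] at this
  have hD' : D = Lᵀ * Matrix.diagonal δ * L := hF.hB
  have h1 : (Lᵀ * (1 - Matrix.diagonal δ) * L).PosSemidef := by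
    have e : Lᵀ * (1 - Matrix.diagonal δ) * L = C - D := by
      rw [hD', hCC, Matrix.mul_sub, Matrix.sub_mul, Matrix.mul_one]
    rw [e]; exact h
  rw [psd_conj_iff hF.isUnit] at h1
  have h2 : ∀ i, δ i ≤ 1 := by
    intro i
    have := h1.diag_nonneg (i := i)
    simp at this
    linarith
  have h3 : ∀ i, 0 < δ i := by
    rw [hD', posDef_conj_iff hF.isUnit, Matrix.posDef_diagonal_iff] at hD
    exact hD
  rw [hF.det_B]
  have h4 : C.det = L.det ^ 2 := by
    rw [hCC, Matrix.det_mul, Matrix.det_transpose]; ring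
  rw [h4]
  have h5 : ∏ i, δ i ≤ 1 := Finset.prod_le_one (fun i _ => (h3 i).le) fun i _ => h2 i
  nlinarith [sq_nonneg L.det]

/-! ### the function to be minimised -/

/-- `w - ε √(1-x) + ½ log x` -/
noncomputable def ft {F : Profile} (W : WProfile F) (ε x : ℝ) : ℝ :=
  W.w x - ε * Real.sqrt (1 - x) + 1 / 2 * Real.log x

noncomputable def GG {F : Profile} {D : TiltData n} (E : EntData D) (W : WProfile F) (ε : ℝ)
    (B : Mat n) (c : Vec n) : ℝ :=
  E.Ent B c + 1 / 2 * Real.log B.det - n - Phi (ft W ε) (D.A B c) B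

section
variable {F : Profile} {D : TiltData n} (E : EntData D) (W : WProfile F) {ε : ℝ}

theorem Fr.beta_mem {B : Mat n} (hB : B.PosDef) (c : Vec n) {L : Mat n} {β : Vec n}
    (h : Fr (D.A B c) B L β) (i : Fin n) : β i ∈ Ioo (0 : ℝ) 1 := by
  constructor
  · have h1 := hB
    rw [h.hB, posDef_conj_iff h.isUnit, Matrix.posDef_diagonal_iff] at h1
    exact h1 i
  · have h1 := D.up B hB.posSemidef c
    have h2 : ((D.A B c)⁻¹ - B).PosDef := by
      have h3 : (D.m • (1 : Mat n)).PosDef := Matrix.PosDef.one.smul D.hm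
      have h4 := h3.add_posSemidef h1
      have e : D.m • (1 : Mat n) + ((D.A B c)⁻¹ - (B + D.m • (1 : Mat n)))
          = (D.A B c)⁻¹ - B := by abel
      rwa [e] at h4
    have e : (D.A B c)⁻¹ - B = Lᵀ * Matrix.diagonal (fun i => 1 - β i) * L := by
      have e1 : (Matrix.diagonal fun i => 1 - β i) = (1 : Mat n) - Matrix.diagonal β := by
        rw [← Matrix.diagonal_one, Matrix.diagonal_sub]
      rw [e1, Matrix.mul_sub, Matrix.sub_mul, Matrix.mul_one, ← h.inv_A, ← h.hB]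
    rw [e, posDef_conj_iff h.isUnit, Matrix.posDef_diagonal_iff] at h2
    have := h2 i
    linarith

theorem GG_eq {B : Mat n} (hB : B.PosDef) (c : Vec n) {L : Mat n} {β : Vec n}
    (h : Fr (D.A B c) B L β) :
    GG E W ε B c = E.Ent B c - 1 / 2 * Real.log (D.A B c).det - n - ∑ i, W.w (β i)
      + ε * ∑ i, Real.sqrt (1 - β i) := by
  have hβ : ∀ i, β i ∈ Ioo (0 : ℝ) 1 := h.beta_mem hB c
  unfold GG
  rw [Phi_eq h]
  unfold ft
  rw [Finset.sum_add_distrib, Finset.sum_sub_distrib, ← Finset.mul_sum, ← Finset.mul_sum]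
  have hAp : 0 < (D.A B c).det := (D.posA B hB.posSemidef c).det_pos
  have h1 : B.det * (D.A B c).det = ∏ i, β i := by
    have e1 := h.det_A
    rw [h.det_B]
    calc L.det ^ 2 * (∏ i, β i) * (D.A B c).det
        = (L.det ^ 2 * (D.A B c).det) * ∏ i, β i := by ring
      _ = _ := by rw [e1, one_mul]
  have h2 : Real.log B.det + Real.log (D.A B c).det = ∑ i, Real.log (β i) := by
    rw [← Real.log_mul hB.det_pos.ne' hAp.ne', h1, Real.log_prod]
    exact fun i _ => (hβ i).1.ne'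
  rw [← h2]
  ring

theorem GG_lower {B : Mat n} (hB : B.PosDef) (c : Vec n) (hε : 0 ≤ ε) :
    - (1 / 2 * Real.log (B + D.M • (1 : Mat n)).det) - 1 / 2 * Real.log (D.A B c).det
      ≤ GG E W ε B c := by
  obtain ⟨L, β, h⟩ := exists_Fr (D.posA B hB.posSemidef c) hB.isHermitian
  have hβ : ∀ i, β i ∈ Ioo (0 : ℝ) 1 := h.beta_mem hB c
  rw [GG_eq E W hB c h]
  have h1 := E.lowE B hB.posSemidef c
  have h2 : ∑ i, W.w (β i) ≤ ∑ _i : Fin n, (1 / 2 * Real.log (2 * Real.pi * Real.exp 1) - 1) :=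
    Finset.sum_le_sum fun i _ => W.w_le _ (hβ i)
  rw [Finset.sum_const, Finset.card_univ, Fintype.card_fin, nsmul_eq_mul] at h2
  have h3 : 0 ≤ ε * ∑ i, Real.sqrt (1 - β i) :=
    mul_nonneg hε (Finset.sum_nonneg fun i _ => Real.sqrt_nonneg _)
  linarith

theorem det_ratio {m M b : ℝ} (hm : 0 < m) (hM : m ≤ M) (hb : 0 ≤ b) {B : Mat n}
    (h : (B - b • (1 : Mat n)).PosSemidef) :
    (B + M • (1 : Mat n)).det ≤ ((b + M) / (b + m)) ^ n * (B + m • (1 : Mat n)).det := by
  have hB : B.PosSemidef := by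
    have := h.add (Matrix.PosSemidef.one.smul hb)
    rwa [sub_add_cancel] at this
  have hBm : (B + m • (1 : Mat n)).PosDef := by
    rw [add_comm]; exact (Matrix.PosDef.one.smul hm).add_posSemidef hB
  have hBM : (B + M • (1 : Mat n)).PosDef := by
    rw [add_comm]; exact (Matrix.PosDef.one.smul (hm.trans_le hM)).add_posSemidef hB
  have hbm : 0 < b + m := by linarith
  have hr : 0 < (b + M) / (b + m) := div_pos (by linarith) hbm
  have h1 := det_mono (hBm.smul hr) hBM (by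
    have e : ((b + M) / (b + m)) • (B + m • (1 : Mat n)) - (B + M • (1 : Mat n))
        = ((M - m) / (b + m)) • (B - b • (1 : Mat n)) := by
      ext i j
      simp only [Matrix.sub_apply, Matrix.smul_apply, Matrix.add_apply, smul_eq_mul]
      field_simp
      ring
    rw [e]
    exact h.smul (div_nonneg (by linarith) hbm.le))
  rwa [Matrix.det_smul, Fintype.card_fin] at h1

/-- the top boundary -/
theorem GG_top {B : Mat n} (hB : B.PosDef) (c : Vec n) (hε : 0 ≤ ε) {b : ℝ} (hb : 0 ≤ b)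
    (h : (B - b • (1 : Mat n)).PosSemidef) :
    - ((n : ℝ) / 2 * Real.log ((b + D.M) / (b + D.m))) ≤ GG E W ε B c := by
  refine le_trans ?_ (GG_lower E W hB c hε)
  have hm := D.hm
  have hM := D.hM
  have hBm : (B + D.m • (1 : Mat n)).PosDef := by
    rw [add_comm]; exact (Matrix.PosDef.one.smul hm).add_posSemidef hB.posSemidef
  have hBM : (B + D.M • (1 : Mat n)).PosDef := by
    rw [add_comm]; exact (Matrix.PosDef.one.smul (hm.trans_le hM)).add_posSemidef hB.posSemidef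
  have h1 := det_ratio hm hM hb h
  have hA := D.posA B hB.posSemidef c
  have h2 : (B + D.m • (1 : Mat n)).det ≤ ((D.A B c)⁻¹).det :=
    det_mono hA.inv hBm (D.up B hB.posSemidef c)
  rw [Matrix.det_nonsing_inv, Ring.inverse_eq_inv'] at h2
  have hr : 0 < (b + D.M) / (b + D.m) := div_pos (by linarith) (by linarith)
  have h3 : Real.log (B + D.M • (1 : Mat n)).det
      ≤ n * Real.log ((b + D.M) / (b + D.m)) + Real.log (B + D.m • (1 : Mat n)).det := by
    have := Real.log_le_log hBM.det_pos h1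
    rwa [Real.log_mul (pow_pos hr n).ne' hBm.det_pos.ne', Real.log_pow] at this
  have h4 : Real.log (B + D.m • (1 : Mat n)).det ≤ - Real.log (D.A B c).det := by
    have := Real.log_le_log hBm.det_pos h2
    rwa [Real.log_inv] at this
  linarith

/-- the boundary `|c| = ρ` -/
theorem GG_side (hε : 0 ≤ ε) (b : ℝ) {η : ℝ} (hη : 0 < η) :
    ∃ ρ : ℝ, ∀ B : Mat n, B.PosDef → (b • (1 : Mat n) - B).PosSemidef →
      ∀ c : Vec n, ρ ≤ ‖c‖ → -η ≤ GG E W ε B c := by
  obtain ⟨ρ, hρ⟩ := E.vA b (2 * η) (by positivity)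
  refine ⟨ρ, fun B hB hb c hc => ?_⟩
  have h1 := hρ B hB.posSemidef hb c hc
  have h2 := GG_lower E W hB c hε
  linarith

theorem GG_cont : ContinuousOn (fun p : Mat n × Vec n => GG E W ε p.1 p.2)
    ({B | B.PosDef} ×ˢ univ) := by
  have hsub : ({B : Mat n | B.PosDef} ×ˢ (univ : Set (Vec n)))
      ⊆ ({B | B.PosSemidef} ×ˢ univ) := by
    rintro ⟨B, c⟩ ⟨h, -⟩
    exact ⟨Matrix.PosDef.posSemidef h, trivial⟩
  unfold GG
  refine (((E.cE.mono hsub).add (continuousOn_const.mul ?_)).sub continuousOn_const).sub ?_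
  · refine ContinuousOn.log ?_ ?_
    · exact (continuous_fst.matrix_det).continuousOn
    · rintro ⟨B, c⟩ ⟨h, -⟩
      exact (Matrix.PosDef.det_pos h).ne'
  · rintro ⟨B, c⟩ ⟨h, -⟩
    have hB : B.PosDef := h
    obtain ⟨L, β, hF⟩ := exists_Fr (D.posA B hB.posSemidef c) hB.isHermitian
    have hβ : ∀ i, β i ∈ Ioo (0 : ℝ) 1 := hF.beta_mem hB c
    have hA : Tendsto (fun p : Mat n × Vec n => D.A p.1 p.2)
        (𝓝[({B | B.PosDef} ×ˢ univ)] (B, c)) (𝓝 (D.A B c)) := by
      refine tendsto_pi_nhds.2 fun i => tendsto_pi_nhds.2 fun j => ?_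
      exact ((D.cA i j).mono hsub) (B, c) ⟨h, trivial⟩
    have hBt : Tendsto (fun p : Mat n × Vec n => p.1)
        (𝓝[({B | B.PosDef} ×ˢ univ)] (B, c)) (𝓝 B) :=
      (continuous_fst.tendsto (B, c)).mono_left nhdsWithin_le_nhds
    refine Phi_tendsto hF hA hBt (f := ft W ε) (fun i => ?_) ?_
    · unfold ft
      have h1 := (W.d1 _ (hβ i)).continuousAt
      have h2 : ContinuousAt (fun x : ℝ => Real.sqrt (1 - x)) (β i) :=
        (continuous_const.sub continuous_id).sqrt.continuousAt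
      have h3 : ContinuousAt Real.log (β i) := Real.continuousAt_log (hβ i).1.ne'
      exact (h1.sub (continuousAt_const.mul h2)).add (continuousAt_const.mul h3)
    · filter_upwards [self_mem_nhdsWithin] with p hp
      have hp1 : p.1.PosDef := hp.1
      exact exists_Fr (D.posA p.1 hp1.posSemidef p.2) hp1.isHermitian

end

/-! ### the domain -/

/-- `0 ≤ s ≤ S`, `B0 + a s ≤ B ≤ B0 + M' (e^{Λ s} - 1)`, `|c| ≤ ρ` -/
def Dom (B0 : Mat n) (a M' Λ S ρ : ℝ) : Set (ℝ × Mat n × Vec n) :=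
  {p | p.1 ∈ Icc 0 S ∧ (p.2.1 - (B0 + (a * p.1) • (1 : Mat n))).PosSemidef ∧
    ((B0 + (M' * (Real.exp (Λ * p.1) - 1)) • (1 : Mat n)) - p.2.1).PosSemidef ∧ ‖p.2.2‖ ≤ ρ}

theorem psd_mono_smul {a b : ℝ} (h : a ≤ b) :
    ((b • (1 : Mat n)) - a • (1 : Mat n)).PosSemidef := by
  rw [← sub_smul]
  exact Matrix.PosSemidef.one.smul (sub_nonneg.2 h)

theorem exists_smul_ge (B : Mat n) (hB : Bᵀ = B) :
    ∃ R : ℝ, 0 ≤ R ∧ (R • (1 : Mat n) - B).PosSemidef := by
  have hH : B.IsHermitian := by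
    rw [Matrix.IsHermitian, Matrix.conjTranspose_eq_transpose_of_trivial]; exact hB
  obtain ⟨U, lam, h1, h2, h3, -⟩ := spec_symm hH
  refine ⟨∑ i, |lam i|, Finset.sum_nonneg fun i _ => abs_nonneg _, ?_⟩
  have e : (∑ i, |lam i|) • (1 : Mat n) - B
      = U * Matrix.diagonal (fun i => (∑ i, |lam i|) - lam i) * Uᵀ := by
    have e1 : (Matrix.diagonal fun i => (∑ i, |lam i|) - lam i)
        = (∑ i, |lam i|) • (1 : Mat n) - Matrix.diagonal lam := by
      rw [Matrix.smul_one_eq_diagonal, Matrix.diagonal_sub]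
    rw [e1, Matrix.mul_sub, Matrix.sub_mul, ← h3, Matrix.mul_smul, Matrix.mul_one,
      Matrix.smul_mul, h2]
  rw [e]
  have h4 : (Matrix.diagonal (fun i => (∑ i, |lam i|) - lam i) : Mat n).PosSemidef := by
    rw [Matrix.posSemidef_diagonal_iff]
    intro i
    have := Finset.single_le_sum (f := fun i => |lam i|) (fun i _ => abs_nonneg _)
      (Finset.mem_univ i)
    have h5 := le_abs_self (lam i)
    linarith
  have h5 := h4.mul_mul_conjTranspose_same U
  rwa [Matrix.conjTranspose_eq_transpose_of_trivial] at h5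

theorem Dom_B_mem {B0 : Mat n} (hB0 : B0.PosDef) {a M' Λ S ρ : ℝ} (ha : 0 ≤ a)
    {p : ℝ × Mat n × Vec n} (hp : p ∈ Dom B0 a M' Λ S ρ) : p.2.1.PosDef := by
  obtain ⟨h1, h2, -, -⟩ := hp
  have h3 := hB0.add_posSemidef (h2.add (Matrix.PosSemidef.one.smul (mul_nonneg ha h1.1)))
  have e : B0 + (p.2.1 - (B0 + (a * p.1) • (1 : Mat n)) + (a * p.1) • (1 : Mat n)) = p.2.1 := by
    abel
  rwa [e] at h3

theorem Dom_compact {B0 : Mat n} (hB0 : B0.PosDef) {a M' Λ S ρ : ℝ} (ha : 0 ≤ a)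
    (hM' : 0 ≤ M') (hΛ : 0 ≤ Λ) :
    ∃ R : ℝ, (∀ p ∈ Dom B0 a M' Λ S ρ, (R • (1 : Mat n) - p.2.1).PosSemidef) ∧
      IsCompact (Dom B0 a M' Λ S ρ) := by
  obtain ⟨R0, hR0, h0⟩ := exists_smul_ge B0 (psd_iff.1 hB0.posSemidef).1
  set R : ℝ := R0 + M' * (Real.exp (Λ * S) - 1) with hR
  have hup : ∀ p ∈ Dom B0 a M' Λ S ρ, (R • (1 : Mat n) - p.2.1).PosSemidef := by
    rintro p ⟨h1, -, h3, -⟩
    have h4 : M' * (Real.exp (Λ * p.1) - 1) ≤ M' * (Real.exp (Λ * S) - 1) := by
      refine mul_le_mul_of_nonneg_left ?_ hM'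
      have := Real.exp_le_exp.2 (mul_le_mul_of_nonneg_left h1.2 hΛ)
      linarith
    have h5 := (h0.add (psd_mono_smul h4)).add h3
    have e : R0 • (1 : Mat n) - B0 + ((M' * (Real.exp (Λ * S) - 1)) • (1 : Mat n)
        - (M' * (Real.exp (Λ * p.1) - 1)) • (1 : Mat n))
        + (B0 + (M' * (Real.exp (Λ * p.1) - 1)) • (1 : Mat n) - p.2.1)
        = R • (1 : Mat n) - p.2.1 := by
      rw [hR, add_smul]; abel
    rwa [e] at h5
  refine ⟨R, hup, ?_⟩
  have hK : IsCompact (Icc (0 : ℝ) S ×ˢ ({M : Mat n | ∀ i j, M i j ∈ Icc (-R) R} ×ˢ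
      Metric.closedBall (0 : Vec n) ρ)) :=
    isCompact_Icc.prod ((isCompact_box R).prod (isCompact_closedBall _ _))
  refine hK.of_isClosed_subset ?_ ?_
  · have c1 : Continuous fun p : ℝ × Mat n × Vec n => p.2.1 - (B0 + (a * p.1) • (1 : Mat n)) := by
      fun_prop
    have c2 : Continuous fun p : ℝ × Mat n × Vec n =>
        (B0 + (M' * (Real.exp (Λ * p.1) - 1)) • (1 : Mat n)) - p.2.1 := by
      fun_prop
    have i1 : IsClosed {p : ℝ × Mat n × Vec n | p.1 ∈ Icc 0 S} :=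
      isClosed_Icc.preimage continuous_fst
    have i2 := isClosed_psd.preimage c1
    have i3 := isClosed_psd.preimage c2
    have i4 : IsClosed {p : ℝ × Mat n × Vec n | ‖p.2.2‖ ≤ ρ} :=
      isClosed_le (by fun_prop) continuous_const
    have e : Dom B0 a M' Λ S ρ = {p : ℝ × Mat n × Vec n | p.1 ∈ Icc 0 S} ∩
        (((fun p : ℝ × Mat n × Vec n => p.2.1 - (B0 + (a * p.1) • (1 : Mat n))) ⁻¹'
          {M : Mat n | M.PosSemidef}) ∩
        (((fun p : ℝ × Mat n × Vec n =>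
          (B0 + (M' * (Real.exp (Λ * p.1) - 1)) • (1 : Mat n)) - p.2.1) ⁻¹'
          {M : Mat n | M.PosSemidef}) ∩ {p : ℝ × Mat n × Vec n | ‖p.2.2‖ ≤ ρ})) := rfl
    rw [e]
    exact i1.inter (i2.inter (i3.inter i4))
  · rintro p hp
    have h1 := hup p hp
    have h2 := Dom_B_mem hB0 ha hp
    obtain ⟨h3, -, -, h4⟩ := hp
    refine ⟨h3, ?_, ?_⟩
    · intro i j
      have h5 := psd_entry h2.posSemidef i j
      have h6 := psd_diag_le h1 i
      have h7 := psd_diag_le h1 j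
      exact abs_le.1 (h5.trans (by linarith))
    · simpa using h4

theorem Dom_step {D : TiltData n} {B0 : Mat n} (hB0 : B0.PosDef) {q0 M' Λ S ρ : ℝ}
    (hq0 : 0 ≤ q0) (hΛ : 0 ≤ Λ) (hM0 : 0 ≤ M')
    (hM' : (M' • (1 : Mat n) - (B0 + D.M • (1 : Mat n))).PosSemidef)
    {s : ℝ} {B : Mat n} {c : Vec n} (hp : (s, B, c) ∈ Dom B0 (q0 * D.m) M' Λ S ρ)
    {Q : Mat n} (h1 : (Q - q0 • (D.A B c)⁻¹).PosSemidef) (h2 : (Λ • (D.A B c)⁻¹ - Q).PosSemidef)
    {t : ℝ} (ht : 0 ≤ t) (hs : s + t ≤ S) {c' : Vec n} (hc' : ‖c'‖ ≤ ρ) :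
    (s + t, B + t • Q, c') ∈ Dom B0 (q0 * D.m) M' Λ S ρ := by
  have hB : B.PosDef := Dom_B_mem hB0 (mul_nonneg hq0 D.hm.le) hp
  obtain ⟨k1, k2, k3, k4⟩ := hp
  simp only at k1 k2 k3 k4
  refine ⟨⟨add_nonneg k1.1 ht, hs⟩, ?_, ?_, hc'⟩
  · -- lower bound
    have e1 := (D.up B hB.posSemidef c).smul hq0
    have e2 := ((h1.add e1).add (hB.posSemidef.smul hq0)).smul ht
    have e3 := k2.add e2
    refine cast (congrArg Matrix.PosSemidef ?_) e3
    ext i j
    simp only [Matrix.sub_apply, Matrix.smul_apply, Matrix.add_apply, smul_eq_mul]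
    ring
  · have e1 := (D.lo B hB.posSemidef c).smul hΛ
    -- `Λ (B + M) ≤ Λ M' e^{Λ s}`
    have e2 := (k3.add hM').smul hΛ
    have e3 := ((h2.add e1).add e2).smul ht
    have hx : Λ * t ≤ Real.exp (Λ * t) - 1 := by
      have := Real.add_one_le_exp (Λ * t)
      linarith
    have e4 : ((M' * Real.exp (Λ * s) * (Real.exp (Λ * t) - 1)) • (1 : Mat n)
        - (M' * Real.exp (Λ * s) * (Λ * t)) • (1 : Mat n)).PosSemidef :=
      psd_mono_smul (mul_le_mul_of_nonneg_left hx (by positivity))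
    have e5 := (k3.add e3).add e4
    refine cast (congrArg Matrix.PosSemidef ?_) e5
    have hexp : Real.exp (Λ * (s + t)) = Real.exp (Λ * s) * Real.exp (Λ * t) := by
      rw [← Real.exp_add]; ring_nf
    ext i j
    simp only [Matrix.sub_apply, Matrix.smul_apply, Matrix.add_apply, smul_eq_mul, hexp]
    ring

/-! ### the minimum -/

section
variable {F : Profile} {D : TiltData n} (E : EntData D) (W : WProfile F)

theorem log_ratio_small (n : ℕ) {m M : ℝ} (hm : 0 < m) {η : ℝ} (hη : 0 < η) :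
    ∃ b : ℝ, 0 < b ∧ (n : ℝ) / 2 * Real.log ((b + M) / (b + m)) < η := by
  have h1 : Tendsto (fun b : ℝ => (n : ℝ) / 2 * Real.log ((b + M) / (b + m))) atTop
      (𝓝 ((n : ℝ) / 2 * Real.log 1)) := by
    refine tendsto_const_nhds.mul ?_
    have h2 : Tendsto (fun b : ℝ => (b + M) / (b + m)) atTop (𝓝 1) := by
      have h3 : Tendsto (fun b : ℝ => 1 + (M - m) / (b + m)) atTop (𝓝 (1 + 0)) := by
        refine tendsto_const_nhds.add ?_
        exact Tendsto.div_atTop tendsto_const_nhds (tendsto_atTop_add_const_right _ _ tendsto_id)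
      rw [add_zero] at h3
      refine h3.congr' ?_
      filter_upwards [eventually_gt_atTop 0] with b hb
      have : b + m ≠ 0 := by positivity
      field_simp
      ring
    exact (Real.continuousAt_log one_ne_zero).tendsto.comp h2
  rw [Real.log_one, mul_zero] at h1
  have h2 := (h1.eventually (gt_mem_nhds hη)).and (eventually_gt_atTop 0)
  obtain ⟨b, hb1, hb2⟩ := h2.exists
  exact ⟨b, hb2, hb1⟩

/-- **Existence of a good minimum point.** -/
theorem exists_min {ε η q0 Λ : ℝ} (hε : 0 ≤ ε) (hη : 0 < η) (hq0 : 0 < q0) (hΛ : q0 ≤ Λ)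
    {B0 : Mat n} {c0 : Vec n} (hB0 : B0.PosDef) (h : GG E W ε B0 c0 < -η) :
    ∃ (B : Mat n) (c : Vec n), B.PosDef ∧ GG E W ε B c < -η ∧
      (∀ e : Vec n, ∀ᶠ t in 𝓝 (0 : ℝ), GG E W ε B c ≤ GG E W ε B (c + t • e)) ∧
      (∀ Q : Mat n, (Q - q0 • (D.A B c)⁻¹).PosSemidef → (Λ • (D.A B c)⁻¹ - Q).PosSemidef →
        ∀ᶠ t in 𝓝[≥] (0 : ℝ),
          GG E W ε B c ≤ GG E W ε (B + t • Q) (c + t • (Q *ᵥ D.mu B c))) := by
  have hm := D.hm
  have hMm := D.hM
  have hΛ0 : 0 < Λ := hq0.trans_le hΛ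
  obtain ⟨b, hb0, hb⟩ := log_ratio_small n (M := D.M) hm hη
  obtain ⟨M', hM0, hM'⟩ := exists_smul_ge (B0 + D.M • (1 : Mat n)) (by
    rw [Matrix.transpose_add, (psd_iff.1 hB0.posSemidef).1, Matrix.transpose_smul,
      Matrix.transpose_one])
  set a : ℝ := q0 * D.m with ha
  have ha0 : 0 < a := mul_pos hq0 hm
  set S : ℝ := b / a with hS
  have hS0 : 0 < S := div_pos hb0 ha0
  obtain ⟨R, hR, -⟩ := Dom_compact (ρ := 0) hB0 (a := a) (M' := M') (Λ := Λ) (S := S) ha0.le hM0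
    hΛ0.le
  obtain ⟨ρ1, hρ1⟩ := GG_side E W hε R hη
  set ρ : ℝ := max ρ1 (‖c0‖ + 1) with hρ
  obtain ⟨R', hR', hK⟩ := Dom_compact (ρ := ρ) hB0 (a := a) (M' := M') (Λ := Λ) (S := S) ha0.le hM0
    hΛ0.le
  have hne : ((0 : ℝ), B0, c0) ∈ Dom B0 a M' Λ S ρ := by
    refine ⟨⟨le_rfl, hS0.le⟩, ?_, ?_, ?_⟩
    · simpa using Matrix.PosSemidef.zero
    · simpa using Matrix.PosSemidef.zero
    · exact (by linarith : ‖c0‖ ≤ ‖c0‖ + 1).trans (le_max_right _ _)
  have hcont : ContinuousOn (fun p : ℝ × Mat n × Vec n => GG E W ε p.2.1 p.2.2)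
      (Dom B0 a M' Λ S ρ) := by
    refine (GG_cont E W (ε := ε)).comp continuous_snd.continuousOn ?_
    intro p hp
    exact ⟨Dom_B_mem hB0 ha0.le hp, trivial⟩
  obtain ⟨⟨s, B, c⟩, hmem, hmin⟩ := hK.exists_isMinOn ⟨_, hne⟩ hcont
  have hB : B.PosDef := Dom_B_mem hB0 ha0.le hmem
  have hmin' : ∀ p ∈ Dom B0 a M' Λ S ρ, GG E W ε B c ≤ GG E W ε p.2.1 p.2.2 := fun p hp =>
    hmin hp
  have hlt : GG E W ε B c < -η := (hmin' _ hne).trans_lt h
  have hs : s < S := by
    rcases hmem.1.2.lt_or_eq with h1 | h1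
    · exact h1
    · exfalso
      simp only at h1
      have h2 : (B - b • (1 : Mat n)).PosSemidef := by
        have h3 := hmem.2.1.add hB0.posSemidef
        refine cast (congrArg Matrix.PosSemidef ?_) h3
        simp only
        have : a * s = b := by rw [h1, hS]; field_simp
        rw [this]
        abel
      have h3 := GG_top E W hB c hε hb0.le h2
      linarith
  have hc : ‖c‖ < ρ := by
    rcases hmem.2.2.2.lt_or_eq with h1 | h1
    · exact h1
    · exfalso
      simp only at h1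
      have h2 : (R • (1 : Mat n) - B).PosSemidef := by
        refine hR (s, B, 0) ⟨hmem.1, hmem.2.1, hmem.2.2.1, ?_⟩
        simp
      have h3 := hρ1 B hB h2 c (by rw [h1]; exact le_max_left _ _)
      linarith
  refine ⟨B, c, hB, hlt, ?_, ?_⟩
  · intro e
    have h1 : Tendsto (fun t : ℝ => ‖c + t • e‖) (𝓝 0) (𝓝 ‖c + (0 : ℝ) • e‖) := by
      apply Continuous.tendsto
      fun_prop
    rw [zero_smul, add_zero] at h1
    filter_upwards [h1.eventually (gt_mem_nhds hc)] with t ht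
    exact hmin' (s, B, c + t • e) ⟨hmem.1, hmem.2.1, hmem.2.2.1, ht.le⟩
  · intro Q hQ1 hQ2
    have h1 : Tendsto (fun t : ℝ => ‖c + t • (Q *ᵥ D.mu B c)‖) (𝓝[≥] 0)
        (𝓝 ‖c + (0 : ℝ) • (Q *ᵥ D.mu B c)‖) := by
      refine Tendsto.mono_left ?_ nhdsWithin_le_nhds
      apply Continuous.tendsto
      fun_prop
    rw [zero_smul, add_zero] at h1
    have h2 : ∀ᶠ t in 𝓝[≥] (0 : ℝ), t < S - s :=
      nhdsWithin_le_nhds (gt_mem_nhds (by linarith))
    filter_upwards [h1.eventually (gt_mem_nhds hc), h2, self_mem_nhdsWithin] with t ht h2 h3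
    exact hmin' _ (Dom_step hB0 hq0.le hΛ0.le hM0 hM' hmem hQ1 hQ2 h3 (by linarith) ht.le)

/-- passage to the limit -/
theorem ent_of_GG {B : Mat n} (hB : B.PosDef) (c : Vec n)
    (h : ∀ ε : ℝ, 0 < ε → ∀ η : ℝ, 0 < η → -η ≤ GG E W ε B c) :
    (n : ℝ) + 1 / 2 * Real.log (D.A B c).det ≤ E.Ent B c := by
  obtain ⟨L, β, hF⟩ := exists_Fr (D.posA B hB.posSemidef c) hB.isHermitian
  have hβ : ∀ i, β i ∈ Ioo (0 : ℝ) 1 := hF.beta_mem hB c
  have hw : 0 ≤ ∑ i, W.w (β i) := Finset.sum_nonneg fun i _ => W.w_nonneg _ (hβ i)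
  have hs : ∑ i, Real.sqrt (1 - β i) ≤ n := by
    have : ∑ i, Real.sqrt (1 - β i) ≤ ∑ _i : Fin n, (1 : ℝ) := by
      refine Finset.sum_le_sum fun i _ => ?_
      rw [Real.sqrt_le_one]
      linarith [(hβ i).1]
    simpa using this
  refine le_of_forall_pos_le_add fun δ hδ => ?_
  have h1 := h (δ / (2 * (n + 1))) (by positivity) (δ / 2) (by positivity)
  rw [GG_eq E W hB c hF] at h1
  have h2 : δ / (2 * (n + 1)) * ∑ i, Real.sqrt (1 - β i) ≤ δ / 2 := by
    calc δ / (2 * (n + 1)) * ∑ i, Real.sqrt (1 - β i) ≤ δ / (2 * (n + 1)) * n :=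
          mul_le_mul_of_nonneg_left hs (by positivity)
      _ ≤ δ / (2 * (n + 1)) * (n + 1) := by
          refine mul_le_mul_of_nonneg_left (by linarith) (by positivity)
      _ = δ / 2 := by field_simp
  linarith

end

end Vale.Agent.P254.L
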