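import Vale.Agent.P254.L.Alg

/-!
P254: interface for the last step (Z): the minimum principle for
`Ent - ½ log det A - n - ∑ w (β_i)`.
-/

namespace Vale.Agent.P254.L

open Matrix Set Filter Topology

/-- the one-variable facts about `w` used in the last step; `p ^ 3 = k` -/
structure WProfile (F : Profile) where
  w : ℝ → ℝ
  w1 : ℝ → ℝ
  w2 : ℝ → ℝ
  d1 : ∀ x ∈ Ioo (0 : ℝ) 1, HasDerivAt w (w1 x) x
  d2 : ∀ x ∈ Ioo (0 : ℝ) 1, HasDerivAt w1 (w2 x) x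
  c2 : ContinuousOn w2 (Ioo 0 1)
  /-- `w' (1 - b) = c k`, `c = 1/4 - b² w''/2` -/
  ode : ∀ x ∈ Ioo (0 : ℝ) 1, w1 x * (1 - x) = (1 / 4 - x ^ 2 * w2 x / 2) * F.p x ^ 3
  /-- lower bound of `c` -/
  cmin : ℝ
  cmin_pos : 0 < cmin
  c_ge : ∀ x ∈ Ioo (0 : ℝ) 1, cmin ≤ 1 / 4 - x ^ 2 * w2 x / 2
  /-- `c (1 - b) ≤ C` -/
  cmax : ℝ
  c_le : ∀ x ∈ Ioo (0 : ℝ) 1, (1 / 4 - x ^ 2 * w2 x / 2) * (1 - x) ≤ cmax
  w1_pos : ∀ x ∈ Ioo (0 : ℝ) 1, 0 < w1 x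
  w1max : ℝ
  w1_le : ∀ x ∈ Ioo (0 : ℝ) 1, w1 x ≤ w1max
  w_nonneg : ∀ x ∈ Ioo (0 : ℝ) 1, 0 ≤ w x
  /-- `w ≤ w(1) = ½ log (2π) - ½ = ½ log (2πe) - 1` -/
  w_le : ∀ x ∈ Ioo (0 : ℝ) 1, w x ≤ 1 / 2 * Real.log (2 * Real.pi * Real.exp 1) - 1
  /-- `c_ij ≤ √(c_i c_j)` -/
  cij : ∀ x ∈ Ioo (0 : ℝ) 1, ∀ y ∈ Ioo (0 : ℝ) 1,
    (1 / 4 - x * y * dd1 w1 w2 x y / 2)
      ≤ Real.sqrt (1 / 4 - x ^ 2 * w2 x / 2) * Real.sqrt (1 / 4 - y ^ 2 * w2 y / 2)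

variable {n : ℕ}

/-- the array of a 3-tensor in the frame given by the rows of `L` -/
def frT (L : Mat n) (T : Ten n) : Ten n := fun i j k =>
  ∑ a, ∑ b, ∑ c, L i a * L j b * L k c * T a b c

/-- The inequality `(P)` for `(A, B, T)`, in frames: whenever `L A Lᵀ = diag a`,
`B = Lᵀ diag b' L`, i.e. `S(A,B) = L⁻¹ diag (a_i p(a_i b'_i)) L⁻ᵀ`:
`⟨T, P⊗P⊗P T⟩ ≤ tr ((S P)^3)` for all `P ≥ 0`. -/
def PIneq (F : Profile) (A B : Mat n) (T : Ten n) : Prop :=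
  ∀ (L : Mat n) (a b' : Vec n), IsUnit L → L * A * Lᵀ = Matrix.diagonal a →
    B = Lᵀ * Matrix.diagonal b' * L → ∀ P : Mat n, P.PosSemidef →
      NN P (frT L T) (frT L T) ≤
        (((Matrix.diagonal fun i => a i * F.p (a i * b' i)) * P) ^ 3).trace

/-- target of block (X) -/
def StX (F : Profile) : Prop :=
  ∀ (n : ℕ) (D : TiltData n) (B : Mat n), B.PosDef → ∀ c : Vec n, PIneq F (D.A B c) B (D.T B c)

/-- target of block (Z): `D(μ_{B,c}) ≥ 0` -/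
def StZ : Prop :=
  ∀ (n : ℕ) (D : TiltData n) (E : EntData D) (B : Mat n), B.PosDef → ∀ c : Vec n,
    (n : ℝ) + 1 / 2 * Real.log (D.A B c).det ≤ E.Ent B c

end Vale.Agent.P254.L
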